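import Mathlib

/-!
# P184: almost idempotents in a seminormed ring with a trace

* `tendsto_trace_sub`: if `P j`, `Q j` are almost idempotent, bounded, and `‖P j - Q j‖ ≤ ω < 1`,
  then `T (P j) - T (Q j) → 0` for every bounded trace `T`.
* `exists_newton`: Newton's iteration `a ↦ 3a² - 2a³`.
-/

namespace Vale.Agent.P184

open Filter Topology

variable {A : Type*} [Ring A] (N : RingSeminorm A)

lemma seminorm_pow_le {D : A} {L : ℝ} (h1 : N 1 ≤ L) (hD : N D ≤ L) :
    ∀ k, N (D ^ k) ≤ L ^ (k + 1)
  | 0 => by simpa using h1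
  | k + 1 => by
    have h := seminorm_pow_le h1 hD k
    have hL : 0 ≤ L := le_trans (apply_nonneg N _) h1
    rw [pow_succ D, pow_succ L (k + 1)]
    exact (map_mul_le_mul N _ _).trans (mul_le_mul h hD (apply_nonneg N _) (by positivity))

lemma seminorm_pow_le' {D : A} {w : ℝ} (hD : N D ≤ w) : ∀ k, N (D ^ (k + 1)) ≤ w ^ (k + 1)
  | 0 => by simpa using hD
  | k + 1 => by
    have h := seminorm_pow_le' hD k
    rw [pow_succ D, pow_succ w (k + 1)]
    exact (map_mul_le_mul N _ _).trans (mul_le_mul h hD (apply_nonneg N _)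
      (pow_nonneg (le_trans (apply_nonneg N _) hD) _))

/-- An element anticommuting with `D` up to `R` anticommutes with odd powers up to `k L^k R`. -/
lemma anticomm_pow {D S : A} {L R : ℝ} (h1 : N 1 ≤ L) (hD : N D ≤ L)
    (hr : N (S * D + D * S) ≤ R) :
    ∀ k : ℕ, N (S * D ^ k - (-1) ^ k * (D ^ k * S)) ≤ k * L ^ k * R
  | 0 => by simp
  | k + 1 => by
    have h := anticomm_pow h1 hD hr k
    have hL : 0 ≤ L := le_trans (apply_nonneg N _) h1
    have hR : 0 ≤ R := le_trans (apply_nonneg N _) hr
    have e : S * D ^ (k + 1) - (-1) ^ (k + 1) * (D ^ (k + 1) * S)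
        = (S * D ^ k - (-1) ^ k * (D ^ k * S)) * D + (-1) ^ k * (D ^ k * (S * D + D * S)) := by
      rw [pow_succ D k, pow_succ (-1 : A) k]
      rcases Nat.even_or_odd k with hk | hk <;> rw [hk.neg_one_pow] <;> noncomm_ring
    rw [e]
    refine (map_add_le_add N _ _).trans ?_
    have t1 : N ((S * D ^ k - (-1) ^ k * (D ^ k * S)) * D) ≤ k * L ^ k * R * L :=
      (map_mul_le_mul N _ _).trans (mul_le_mul h hD (apply_nonneg N _) (by positivity))
    have t2 : N ((-1) ^ k * (D ^ k * (S * D + D * S))) ≤ L ^ (k + 1) * R := by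
      have t : N (D ^ k * (S * D + D * S)) ≤ L ^ (k + 1) * R :=
        (map_mul_le_mul N _ _).trans
          (mul_le_mul (seminorm_pow_le N h1 hD k) hr (apply_nonneg N _) (by positivity))
      rcases Nat.even_or_odd k with hk | hk
      · rw [hk.neg_one_pow, one_mul]; exact t
      · rw [hk.neg_one_pow, neg_one_mul, map_neg_eq_map]; exact t
    calc _ ≤ k * L ^ k * R * L + L ^ (k + 1) * R := add_le_add t1 t2
      _ = ((k + 1 : ℕ) : ℝ) * L ^ (k + 1) * R := by push_cast; ring

variable (T : A →+ ℂ) (hT : ∀ a b, T (a * b) = T (b * a)) (hTN : ∀ a, ‖T a‖ ≤ N a)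

include hT hTN in
lemma trace_step {P Q : A} {L ε : ℝ} (h1 : N 1 ≤ L) (hD : N (P - Q) ≤ L)
    (hS : N (P + Q - 1) ≤ L) (hp : N (P * P - P) ≤ ε) (hq : N (Q * Q - Q) ≤ ε) (m : ℕ) :
    ‖T ((P - Q) ^ (2 * m + 1)) - T ((P - Q) ^ (2 * m + 3))‖
      ≤ 4 * (2 * m + 2) * L ^ (2 * m + 2) * ε := by
  set D := P - Q with hDdef
  set S := P + Q - 1 with hSdef
  set k := 2 * m + 1 with hk
  have hL : 0 ≤ L := le_trans (apply_nonneg N _) h1
  have hε : 0 ≤ ε := le_trans (apply_nonneg N _) hp
  have hr : N (S * D + D * S) ≤ 4 * ε := by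
    have e : S * D + D * S
        = (P * P - P) + (P * P - P) + (-(Q * Q - Q) + -(Q * Q - Q)) := by
      rw [hDdef, hSdef]; noncomm_ring
    rw [e]
    refine (map_add_le_add N _ _).trans ?_
    have := map_add_le_add N (P * P - P) (P * P - P)
    have := map_add_le_add N (-(Q * Q - Q)) (-(Q * Q - Q))
    have := map_neg_eq_map N (Q * Q - Q)
    linarith
  have hu : N (D * D + S * S - 1) ≤ 4 * ε := by
    have e : D * D + S * S - 1
        = (P * P - P) + (P * P - P) + ((Q * Q - Q) + (Q * Q - Q)) := by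
      rw [hDdef, hSdef]; noncomm_ring
    rw [e]
    refine (map_add_le_add N _ _).trans ?_
    have := map_add_le_add N (P * P - P) (P * P - P)
    have := map_add_le_add N (Q * Q - Q) (Q * Q - Q)
    linarith
  have he : N (S * D ^ k + D ^ k * S) ≤ k * L ^ k * (4 * ε) := by
    have := anticomm_pow N h1 hD hr k
    rwa [(odd_two_mul_add_one m).neg_one_pow, neg_one_mul, sub_neg_eq_add] at this
  have key : T (D ^ k) - T (D ^ (k + 2))
      = T ((S * D ^ k + D ^ k * S) * S) / 2 - T (D ^ k * (D * D + S * S - 1)) := by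
    have e1 : T ((S * D ^ k + D ^ k * S) * S) = T (D ^ k * (S * S)) + T (D ^ k * (S * S)) := by
      rw [add_mul, map_add, mul_assoc S, hT S, mul_assoc]
    have e2 : D ^ k * (D * D + S * S - 1) = D ^ (k + 2) + D ^ k * (S * S) - D ^ k := by
      have h2 : D ^ (k + 2) = D ^ k * (D * D) := by rw [pow_succ, pow_succ, mul_assoc]
      rw [h2, mul_sub, mul_add, mul_one]
    rw [e1, e2, map_sub, map_add]
    ring
  rw [show 2 * m + 3 = k + 2 by omega, key]
  refine (norm_sub_le _ _).trans ?_
  have b1 : ‖T ((S * D ^ k + D ^ k * S) * S) / 2‖ ≤ k * L ^ k * (4 * ε) * L := by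
    rw [norm_div, show ‖(2 : ℂ)‖ = 2 by norm_num]
    have := (hTN _).trans ((map_mul_le_mul N (S * D ^ k + D ^ k * S) S).trans
      (mul_le_mul he hS (apply_nonneg N _) (by positivity)))
    have h0 : 0 ≤ k * L ^ k * (4 * ε) * L := by positivity
    linarith
  have b2 : ‖T (D ^ k * (D * D + S * S - 1))‖ ≤ L ^ (k + 1) * (4 * ε) :=
    (hTN _).trans ((map_mul_le_mul N _ _).trans
      (mul_le_mul (seminorm_pow_le N h1 hD k) hu (apply_nonneg N _) (by positivity)))
  calc _ ≤ k * L ^ k * (4 * ε) * L + L ^ (k + 1) * (4 * ε) := add_le_add b1 b2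
    _ = 4 * (2 * m + 2) * L ^ (2 * m + 2) * ε := by
      rw [hk]; push_cast; ring

include hT hTN in
/-- Nearby almost idempotents have almost equal traces. -/
theorem tendsto_trace_sub {P Q : ℕ → A}
    (hP : Tendsto (fun j => N (P j * P j - P j)) atTop (𝓝 0))
    (hQ : Tendsto (fun j => N (Q j * Q j - Q j)) atTop (𝓝 0))
    {L : ℝ} (hPL : ∀ j, N (P j) ≤ L) (hQL : ∀ j, N (Q j) ≤ L)
    {ω : ℝ} (hω : ω < 1) (hD : ∀ j, N (P j - Q j) ≤ ω) :
    Tendsto (fun j => T (P j) - T (Q j)) atTop (𝓝 0) := by
  set L' := 2 * L + N 1 + 1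
  have hL0 : 0 ≤ L := le_trans (apply_nonneg N _) (hPL 0)
  have h10 : 0 ≤ N (1 : A) := apply_nonneg N _
  have hω0 : 0 ≤ ω := le_trans (apply_nonneg N _) (hD 0)
  have h1' : N 1 ≤ L' := by simp only [L']; linarith
  have hD' : ∀ j, N (P j - Q j) ≤ L' := fun j => (hD j).trans (by simp only [L']; linarith)
  have hS' : ∀ j, N (P j + Q j - 1) ≤ L' := fun j => by
    have := map_add_le_add N (P j + Q j) (-1)
    have := map_add_le_add N (P j) (Q j)
    have := hPL j
    have := hQL j
    have := map_neg_eq_map N (1 : A)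
    simp only [L', sub_eq_add_neg]
    linarith
  have hm : ∀ m : ℕ, Tendsto (fun j => T (P j - Q j) - T ((P j - Q j) ^ (2 * m + 1))) atTop
      (𝓝 0) := by
    intro m
    induction m with
    | zero => simp
    | succ m ih =>
      have hs : Tendsto (fun j => T ((P j - Q j) ^ (2 * m + 1))
          - T ((P j - Q j) ^ (2 * m + 3))) atTop (𝓝 0) := by
        refine squeeze_zero_norm (a := fun j => 4 * (2 * (m : ℝ) + 2) * L' ^ (2 * m + 2)
            * (N (P j * P j - P j) + N (Q j * Q j - Q j))) (fun j => ?_) ?_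
        · exact trace_step N T hT hTN h1' (hD' j) (hS' j)
            (le_add_of_nonneg_right (apply_nonneg N _))
            (le_add_of_nonneg_left (apply_nonneg N _)) m
        · simpa using (hP.add hQ).const_mul (4 * (2 * (m : ℝ) + 2) * L' ^ (2 * m + 2))
      have := ih.add hs
      rw [zero_add] at this
      refine this.congr fun j => ?_
      rw [show 2 * (m + 1) + 1 = 2 * m + 3 by omega]
      ring
  rw [Metric.tendsto_atTop]
  intro η hη
  obtain ⟨m, hm'⟩ := exists_pow_lt_of_lt_one (half_pos hη) hω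
  obtain ⟨J, hJ⟩ := Metric.tendsto_atTop.mp (hm m) (η / 2) (half_pos hη)
  refine ⟨J, fun j hj => ?_⟩
  have h := hJ j hj
  rw [dist_zero_right] at h ⊢
  have hpow : ‖T ((P j - Q j) ^ (2 * m + 1))‖ ≤ ω ^ m :=
    ((hTN _).trans (seminorm_pow_le' N (hD j) (2 * m))).trans
      (pow_le_pow_of_le_one hω0 hω.le (by omega))
  have hsplit := norm_add_le (T (P j - Q j) - T ((P j - Q j) ^ (2 * m + 1)))
    (T ((P j - Q j) ^ (2 * m + 1)))
  rw [sub_add_cancel, map_sub] at hsplit
  rw [map_sub] at h
  linarith

/-- Newton's iteration towards an idempotent. -/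
theorem exists_newton (a0 : A) {M : ℝ} (hM : N a0 + 1 ≤ M)
    (hsmall : 8 * M * N (a0 * a0 - a0) ≤ 1) :
    ∃ a : ℕ → A, a 0 = a0 ∧ Tendsto (fun j => N (a j * a j - a j)) atTop (𝓝 0) ∧
      ∀ j, N (a j - a0) ≤ 8 * M * N (a0 * a0 - a0) := by
  set ε := N (a0 * a0 - a0) with hε
  have hM1 : 1 ≤ M := le_trans (le_add_of_nonneg_left (apply_nonneg N _)) hM
  have hε0 : 0 ≤ ε := apply_nonneg N _
  have hε8 : 8 * ε ≤ 1 := le_trans (by nlinarith) hsmall
  let step : A → A := fun a => a - ((a + a) * (a * a - a) - (a * a - a))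
  let a : ℕ → A := fun j => step^[j] a0
  have key : ∀ j, N (a j * a j - a j) ≤ ε / 2 ^ j ∧
      N (a j - a0) ≤ 4 * M * (2 * ε - 2 * ε / 2 ^ j) := by
    intro j
    induction j with
    | zero => simp [a, hε]
    | succ j ih =>
      obtain ⟨ih1, ih2⟩ := ih
      set b := a j with hb
      have hs : a (j + 1) = step b := by simp [a, hb, Function.iterate_succ_apply']
      rw [hs]
      set d := ε / 2 ^ j with hd
      have hd0 : 0 ≤ d := by positivity
      have hdε : d ≤ ε := div_le_self hε0 (one_le_pow₀ (by norm_num))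
      have e2 : 2 * ε / 2 ^ j = 2 * d := by rw [hd]; ring
      rw [e2] at ih2
      have hbM : N b ≤ 2 * M := by
        have h := map_add_le_add N (b - a0) a0
        rw [sub_add_cancel] at h
        have h8 : 4 * M * (2 * ε - 2 * d) ≤ 8 * M * ε := by nlinarith
        linarith
      set p := b * b - b with hp
      constructor
      · have e : step b * step b - step b
            = p * p * (p + p + p + p) + (-(p * p) + (-(p * p) + -(p * p))) := by
          simp only [step, hp]; noncomm_ring
        rw [e, show ε / 2 ^ (j + 1) = d / 2 by rw [hd, pow_succ]; ring]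
        have hpp : N (p * p) ≤ d * d :=
          (map_mul_le_mul N _ _).trans (mul_le_mul ih1 ih1 (apply_nonneg N _) hd0)
        have h4 : N (p + p + p + p) ≤ 4 * d := by
          have := map_add_le_add N (p + p + p) p
          have := map_add_le_add N (p + p) p
          have := map_add_le_add N p p
          linarith
        have h5 : N (p * p * (p + p + p + p)) ≤ d * d * (4 * d) :=
          (map_mul_le_mul N _ _).trans
            (mul_le_mul hpp h4 (apply_nonneg N _) (by positivity))
        have := map_add_le_add N (p * p * (p + p + p + p))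
          (-(p * p) + (-(p * p) + -(p * p)))
        have := map_add_le_add N (-(p * p)) (-(p * p) + -(p * p))
        have := map_add_le_add N (-(p * p)) (-(p * p))
        have := map_neg_eq_map N (p * p)
        have h6 : d * d * (4 * d) + 3 * (d * d) ≤ d / 2 := by
          have : d ≤ 1 / 8 := by linarith
          nlinarith [mul_nonneg hd0 hd0]
        linarith
      · have e : step b - a0 = (b - a0) + (-((b + b) * p) + p) := by
          simp only [step, hp]; abel
        rw [e, show 2 * ε / 2 ^ (j + 1) = d by rw [hd, pow_succ]; ring]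
        have h7 : N ((b + b) * p) ≤ 4 * M * d - d := by
          have hbb : N (b + b) ≤ 2 * N b := by
            have := map_add_le_add N b b; linarith
          have hb2 : N b ≤ 2 * M - 1 / 2 := by
            have h := map_add_le_add N (b - a0) a0
            rw [sub_add_cancel] at h
            have h8 : 4 * M * (2 * ε - 2 * d) ≤ 8 * M * ε := by nlinarith
            have : N b ≤ N a0 + 1 := by linarith
            linarith
          calc N ((b + b) * p) ≤ (4 * M - 1) * d :=
              (map_mul_le_mul N _ _).trans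
                (mul_le_mul (by linarith) ih1 (apply_nonneg N _) (by linarith))
            _ = 4 * M * d - d := by ring
        have := map_add_le_add N (b - a0) (-((b + b) * p) + p)
        have := map_add_le_add N (-((b + b) * p)) p
        have := map_neg_eq_map N ((b + b) * p)
        nlinarith
  refine ⟨a, rfl, ?_, fun j => (key j).2.trans ?_⟩
  · refine squeeze_zero (fun j => apply_nonneg N _) (fun j => (key j).1) ?_
    have := (tendsto_pow_atTop_nhds_zero_of_lt_one (r := (1 / 2 : ℝ)) (by norm_num)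
      (by norm_num)).const_mul ε
    rw [mul_zero] at this
    refine this.congr fun j => ?_
    rw [one_div, inv_pow]; ring
  · have : 0 ≤ 2 * ε / 2 ^ j := by positivity
    nlinarith

end Vale.Agent.P184
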