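import Mathlib

/-!
# P184: definitions for the ℓ¹-Bass vanishing theorem
-/

namespace Vale.Agent.P184

/-- `LipHom x`: there is `F : H → ℝ` which changes by a fixed nonzero constant under right
translation by `x`, by a constant (depending only on `z`) under right translation by each `z` in
the centraliser of `x`, and by a bounded amount under each left translation. -/
def LipHom {H : Type*} [Group H] (x : H) : Prop :=
  ∃ (F : H → ℝ) (c : ℝ), c ≠ 0 ∧ (∀ y, F (y * x) = F y + c) ∧
    (∀ z, z * x = x * z → ∀ y y', F (y * z) - F y = F (y' * z) - F y') ∧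
    ∀ h, ∃ L, ∀ y, |F (h * y) - F y| ≤ L

/-- `e` is an idempotent matrix over `ℓ¹(G)`. -/
def IsL1Idempotent {G : Type*} [Group G] {q : ℕ} (e : Fin q → Fin q → G → ℂ) : Prop :=
  (∀ i j, Summable fun g => ‖e i j g‖) ∧
    ∀ i j g, e i j g = ∑ k, ∑' h, e i k h * e k j (h⁻¹ * g)

/-- The Hattori–Stallings coefficient of `e` at the conjugacy class of `g`. -/
noncomputable def hsCoeff {G : Type*} [Group G] {q : ℕ} (e : Fin q → Fin q → G → ℂ) (g : G) :
    ℂ :=
  ∑ i, ∑' x : {x : G // IsConj g x}, e i i x

end Vale.Agent.P184
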