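import Mathlib
import Vale.Agent.P184.Defs
import Vale.Agent.P184.Approx

/-!
# P184: the twisted crossed product and the homotopy argument

For `x` in a group `H` with class `X`, the crossed product of `X →ᵇ ℂ` by `H` carries the trace
`u δ_h ↦ [h ∈ X] u(h)`.  A cocycle `f : H × X → ℝ`, bounded in the second variable, twists the
group algebra into it by `δ_h ↦ exp (i θ f(h, ·)) δ_h`.
-/

namespace Vale.Agent.P184

open Filter Topology BoundedContinuousFunction
open scoped MonoidAlgebra

/-! ### Seminorms and functionals on the group algebra and on matrices -/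

section Norms

variable {H : Type*} [Group H]

/-- The `ℓ¹` norm on the group algebra. -/
noncomputable def l1 (H : Type*) [Group H] : RingSeminorm ℂ[H] where
  toFun a := a.coeff.sum fun _ c => ‖c‖
  map_zero' := by simp
  add_le' a b := by
    classical
    have key : ∀ f g : H →₀ ℂ, ((f + g).sum fun _ c => ‖c‖) ≤
        (f.sum fun _ c => ‖c‖) + g.sum fun _ c => ‖c‖ := by
      intro f g
      rw [Finsupp.sum_of_support_subset (f + g) Finsupp.support_add _ (by simp),
        Finsupp.sum_of_support_subset f Finset.subset_union_left _ (by simp) (s := f.support ∪ g.support),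
        Finsupp.sum_of_support_subset g Finset.subset_union_right _ (by simp) (s := f.support ∪ g.support),
        ← Finset.sum_add_distrib]
      exact Finset.sum_le_sum fun h _ => norm_add_le _ _
    simpa using key a.coeff b.coeff
  neg' a := by simp [Finsupp.sum_neg_index, Finsupp.sum]
  mul_le' a b := by
    classical
    let n : ℂ[H] → ℝ := fun a => a.coeff.sum fun _ c => ‖c‖
    have hs : ∀ h c, n (MonoidAlgebra.single h c) = ‖c‖ := fun h c => by simp [n]
    have hadd : ∀ f g : ℂ[H], n (f + g) ≤ n f + n g := by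
      intro f g
      simp only [n, MonoidAlgebra.coeff_add]
      rw [Finsupp.sum_of_support_subset (f.coeff + g.coeff) Finsupp.support_add _ (by simp),
        Finsupp.sum_of_support_subset f.coeff Finset.subset_union_left _ (by simp)
          (s := f.coeff.support ∪ g.coeff.support),
        Finsupp.sum_of_support_subset g.coeff Finset.subset_union_right _ (by simp)
          (s := f.coeff.support ∪ g.coeff.support),
        ← Finset.sum_add_distrib]
      exact Finset.sum_le_sum fun h _ => norm_add_le _ _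
    show n (a * b) ≤ n a * n b
    have hsum : ∀ (s : Finset H) (φ : H → ℂ[H]), n (∑ i ∈ s, φ i) ≤ ∑ i ∈ s, n (φ i) := by
      intro s φ
      exact Finset.le_sum_of_subadditive n (by simp [n]) hadd s φ
    rw [MonoidAlgebra.mul_def]
    show n (∑ h ∈ a.coeff.support, ∑ k ∈ b.coeff.support, _) ≤
      (∑ h ∈ a.coeff.support, ‖a.coeff h‖) * (∑ k ∈ b.coeff.support, ‖b.coeff k‖)
    rw [Finset.sum_mul_sum]
    refine (hsum _ _).trans (Finset.sum_le_sum fun h _ => (hsum _ _).trans
      (Finset.sum_le_sum fun k _ => ?_))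
    rw [hs, norm_mul]

lemma l1_apply (a : ℂ[H]) : (l1 H) a = a.coeff.sum fun _ c => ‖c‖ := rfl

lemma l1_eq_sum_of_subset {a : ℂ[H]} {s : Finset H} (hs : a.coeff.support ⊆ s) :
    (l1 H) a = ∑ h ∈ s, ‖a.coeff h‖ := by
  rw [l1_apply, Finsupp.sum_of_support_subset _ hs _ (by simp)]

variable {A : Type*} [Ring A] {q : ℕ}

/-- The sum of the seminorms of the entries of a matrix. -/
noncomputable def matN (q : ℕ) (N : RingSeminorm A) : RingSeminorm (Matrix (Fin q) (Fin q) A) where
  toFun a := ∑ i, ∑ j, N (a i j)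
  map_zero' := by simp
  add_le' a b := by
    simp only [← Finset.sum_add_distrib]
    exact Finset.sum_le_sum fun i _ => Finset.sum_le_sum fun j _ => map_add_le_add N _ _
  neg' a := by simp
  mul_le' a b := by
    calc ∑ i, ∑ j, N ((a * b) i j)
        ≤ ∑ i, ∑ j, ∑ k, N (a i k) * N (b k j) := by
          refine Finset.sum_le_sum fun i _ => Finset.sum_le_sum fun j _ => ?_
          rw [Matrix.mul_apply]
          exact (Finset.le_sum_of_subadditive N (map_zero N).le (map_add_le_add N) _ _).trans
            (Finset.sum_le_sum fun k _ => map_mul_le_mul N _ _)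
      _ = ∑ i, ∑ k, N (a i k) * ∑ j, N (b k j) := by
          refine Finset.sum_congr rfl fun i _ => ?_
          rw [Finset.sum_comm]
          simp [Finset.mul_sum]
      _ ≤ ∑ i, ∑ k, N (a i k) * ∑ k', ∑ j, N (b k' j) := by
          refine Finset.sum_le_sum fun i _ => Finset.sum_le_sum fun k _ =>
            mul_le_mul_of_nonneg_left ?_ (apply_nonneg N _)
          exact Finset.single_le_sum (f := fun k' => ∑ j, N (b k' j))
            (fun k' _ => Finset.sum_nonneg fun j _ => apply_nonneg N _) (Finset.mem_univ k)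
      _ = (∑ i, ∑ k, N (a i k)) * ∑ k', ∑ j, N (b k' j) := by simp [Finset.sum_mul]

lemma matN_apply (N : RingSeminorm A) (a : Matrix (Fin q) (Fin q) A) :
    matN q N a = ∑ i, ∑ j, N (a i j) := rfl

/-- The functional `∑ h, a(h) w(h)` on the group algebra. -/
noncomputable def wsum (w : H → ℂ) : ℂ[H] →+ ℂ :=
  (Finsupp.liftAddHom fun h => AddMonoidHom.mulRight (w h)).comp
    MonoidAlgebra.coeffAddEquiv.toAddMonoidHom

lemma wsum_apply (w : H → ℂ) (a : ℂ[H]) : wsum w a = a.coeff.sum fun h c => c * w h := rfl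

@[simp] lemma wsum_single (w : H → ℂ) (h : H) (c : ℂ) :
    wsum w (MonoidAlgebra.single h c) = c * w h := by
  simp [wsum_apply]

lemma norm_wsum_le {w : H → ℂ} (hw : ∀ h, ‖w h‖ ≤ 1) (a : ℂ[H]) : ‖wsum w a‖ ≤ (l1 H) a := by
  refine (norm_sum_le _ _).trans (Finset.sum_le_sum fun h _ => ?_)
  show ‖a.coeff h * w h‖ ≤ ‖a.coeff h‖
  rw [norm_mul]
  exact mul_le_of_le_one_right (norm_nonneg _) (hw h)

/-- `∑ i, ∑ h, a i i (h) w(h)`. -/
noncomputable def wtr (w : H → ℂ) (a : Matrix (Fin q) (Fin q) ℂ[H]) : ℂ :=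
  ∑ i, wsum w (a i i)

lemma norm_wtr_le {w : H → ℂ} (hw : ∀ h, ‖w h‖ ≤ 1) (a : Matrix (Fin q) (Fin q) ℂ[H]) :
    ‖wtr w a‖ ≤ matN q (l1 H) a := by
  refine (norm_sum_le _ _).trans (Finset.sum_le_sum fun i _ => (norm_wsum_le hw _).trans ?_)
  exact Finset.single_le_sum (f := fun j => (l1 H) (a i j)) (fun j _ => apply_nonneg _ _)
    (Finset.mem_univ i)

end Norms

/-! ### The crossed product attached to a conjugacy class -/

section Crossed

variable {H : Type*} [Group H]

/-- The conjugacy class of `x`. -/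
def ClassOf (x : H) : Type _ := {y : H // IsConj x y}

variable {x : H}

noncomputable instance : TopologicalSpace (ClassOf x) := ⊥
instance : DiscreteTopology (ClassOf x) := ⟨rfl⟩

instance : MulAction H (ClassOf x) where
  smul h y := ⟨h * y.1 * h⁻¹, y.2.trans (isConj_iff.mpr ⟨h, rfl⟩)⟩
  one_smul y := Subtype.ext (by show 1 * y.1 * 1⁻¹ = y.1; simp)
  mul_smul h k y := Subtype.ext (by
    show h * k * y.1 * (h * k)⁻¹ = h * (k * y.1 * k⁻¹) * h⁻¹
    simp [mul_assoc])

/-- A member of the class, as an element of `ClassOf x`. -/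
def ClassOf.mk (h : H) (hh : IsConj x h) : ClassOf x := ⟨h, hh⟩

@[simp] lemma ClassOf.mk_val (h : H) (hh : IsConj x h) : (ClassOf.mk h hh).1 = h := rfl

lemma smul_val (h : H) (y : ClassOf x) : (h • y).1 = h * y.1 * h⁻¹ := rfl

noncomputable instance : MulSemiringAction H (ClassOf x →ᵇ ℂ) where
  smul h v := v.compContinuous ⟨fun y => h⁻¹ • y, continuous_of_discreteTopology⟩
  one_smul v := by ext y; show v ((1 : H)⁻¹ • y) = v y; simp
  mul_smul h k v := by ext y; show v ((h * k)⁻¹ • y) = v (k⁻¹ • h⁻¹ • y); rw [mul_inv_rev, mul_smul]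
  smul_zero h := rfl
  smul_add h u v := rfl
  smul_one h := rfl
  smul_mul h u v := rfl

lemma act_apply (h : H) (v : ClassOf x →ᵇ ℂ) (y : ClassOf x) : (h • v) y = v (h⁻¹ • y) := rfl

lemma norm_act_le (h : H) (v : ClassOf x →ᵇ ℂ) : ‖h • v‖ ≤ ‖v‖ :=
  (norm_le (norm_nonneg _)).mpr fun y => by rw [act_apply]; exact norm_coe_le_norm v _

/-- The crossed product. -/
abbrev Cross (x : H) := SkewMonoidAlgebra (ClassOf x →ᵇ ℂ) H

/-- The `ℓ¹`-norm on the crossed product. -/
noncomputable def crossN (x : H) : RingSeminorm (Cross x) where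
  toFun a := a.coeff.sum fun _ u => ‖u‖
  map_zero' := by simp
  add_le' a b := by
    classical
    rw [SkewMonoidAlgebra.coeff_add,
      Finsupp.sum_of_support_subset (a.coeff + b.coeff) Finsupp.support_add _ (by simp),
      Finsupp.sum_of_support_subset a.coeff Finset.subset_union_left _ (by simp)
        (s := a.coeff.support ∪ b.coeff.support),
      Finsupp.sum_of_support_subset b.coeff Finset.subset_union_right _ (by simp)
        (s := a.coeff.support ∪ b.coeff.support),
      ← Finset.sum_add_distrib]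
    exact Finset.sum_le_sum fun h _ => norm_add_le _ _
  neg' a := by simp [Finsupp.sum]
  mul_le' a b := by
    classical
    let n : Cross x → ℝ := fun a => a.coeff.sum fun _ u => ‖u‖
    have hs : ∀ h u, n (SkewMonoidAlgebra.single h u) = ‖u‖ := fun h u => by simp [n]
    have hadd : ∀ f g : Cross x, n (f + g) ≤ n f + n g := by
      intro f g
      simp only [n, SkewMonoidAlgebra.coeff_add]
      rw [Finsupp.sum_of_support_subset (f.coeff + g.coeff) Finsupp.support_add _ (by simp),
        Finsupp.sum_of_support_subset f.coeff Finset.subset_union_left _ (by simp)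
          (s := f.coeff.support ∪ g.coeff.support),
        Finsupp.sum_of_support_subset g.coeff Finset.subset_union_right _ (by simp)
          (s := f.coeff.support ∪ g.coeff.support),
        ← Finset.sum_add_distrib]
      exact Finset.sum_le_sum fun h _ => norm_add_le _ _
    show n (a * b) ≤ n a * n b
    have hsum : ∀ (s : Finset H) (φ : H → Cross x), n (∑ i ∈ s, φ i) ≤ ∑ i ∈ s, n (φ i) :=
      fun s φ => Finset.le_sum_of_subadditive n (by simp [n]) hadd s φ
    rw [SkewMonoidAlgebra.mul_def, SkewMonoidAlgebra.sum_def']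
    show n (∑ h ∈ a.support, _) ≤
      (∑ h ∈ a.support, ‖a.coeff h‖) * (∑ k ∈ b.support, ‖b.coeff k‖)
    rw [Finset.sum_mul_sum]
    refine (hsum _ _).trans (Finset.sum_le_sum fun h _ => ?_)
    rw [SkewMonoidAlgebra.sum_def']
    refine (hsum _ _).trans (Finset.sum_le_sum fun k _ => ?_)
    rw [hs]
    exact (norm_mul_le _ _).trans (mul_le_mul_of_nonneg_left (norm_act_le _ _) (norm_nonneg _))

@[simp] lemma crossN_single (h : H) (u : ClassOf x →ᵇ ℂ) :
    (crossN x) (SkewMonoidAlgebra.single h u) = ‖u‖ := by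
  show (SkewMonoidAlgebra.single h u).coeff.sum _ = _
  simp

open Classical in
/-- `u ↦ [h ∈ X] u(h)`. -/
noncomputable def evalIf (h : H) : (ClassOf x →ᵇ ℂ) →+ ℂ where
  toFun u := if hh : IsConj x h then u (ClassOf.mk h hh) else 0
  map_zero' := by split_ifs <;> rfl
  map_add' u v := by
    split_ifs
    · rfl
    · simp

open Classical in
lemma evalIf_apply (h : H) (u : ClassOf x →ᵇ ℂ) :
    evalIf h u = if hh : IsConj x h then u (ClassOf.mk h hh) else 0 := rfl

/-- The trace on the crossed product. -/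
noncomputable def crossT : Cross x →+ ℂ :=
  (Finsupp.liftAddHom fun h => evalIf h).comp SkewMonoidAlgebra.coeffAddEquiv.toAddMonoidHom

@[simp] lemma crossT_single (h : H) (u : ClassOf x →ᵇ ℂ) :
    crossT (SkewMonoidAlgebra.single h u) = evalIf h u :=
  Finsupp.liftAddHom_apply_single _ _ _

lemma norm_crossT_le (a : Cross x) : ‖crossT a‖ ≤ (crossN x) a := by
  refine (norm_sum_le _ _).trans (Finset.sum_le_sum fun h _ => ?_)
  show ‖evalIf h (a.coeff h)‖ ≤ _
  rw [evalIf_apply]
  split_ifs
  · exact norm_coe_le_norm _ _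
  · simp

lemma crossT_mul_comm (a b : Cross x) : crossT (a * b) = crossT (b * a) := by
  induction a using SkewMonoidAlgebra.induction_on with
  | zero => simp
  | add f g hf hg => simp [add_mul, mul_add, hf, hg]
  | single h u =>
    induction b using SkewMonoidAlgebra.induction_on with
    | zero => simp
    | add f g hf hg => simp [add_mul, mul_add, hf, hg]
    | single k v =>
      classical
      have hiff : IsConj x (h * k) ↔ IsConj x (k * h) :=
        ⟨fun hh => hh.trans (isConj_iff.mpr ⟨h⁻¹, by group⟩),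
          fun hh => hh.trans (isConj_iff.mpr ⟨k⁻¹, by group⟩)⟩
      simp only [SkewMonoidAlgebra.single_mul_single, crossT_single, evalIf_apply]
      by_cases hh : IsConj x (h * k)
      · rw [dif_pos hh, dif_pos (hiff.mp hh), BoundedContinuousFunction.mul_apply,
          BoundedContinuousFunction.mul_apply, act_apply, act_apply, mul_comm]
        congr 1
        · congr 1
          exact Subtype.ext (by simp only [smul_val, ClassOf.mk_val]; group)
        · congr 1
          exact Subtype.ext (by simp only [smul_val, ClassOf.mk_val]; group)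
      · rw [dif_neg hh, dif_neg (mt hiff.mpr hh)]

variable {q : ℕ}

/-- The trace on matrices over the crossed product. -/
noncomputable def matT : Matrix (Fin q) (Fin q) (Cross x) →+ ℂ where
  toFun a := ∑ i, crossT (a i i)
  map_zero' := by simp
  map_add' a b := by simp [Finset.sum_add_distrib]

lemma matT_apply (a : Matrix (Fin q) (Fin q) (Cross x)) : matT a = ∑ i, crossT (a i i) := rfl

lemma norm_matT_le (a : Matrix (Fin q) (Fin q) (Cross x)) : ‖matT a‖ ≤ matN q (crossN x) a := by
  refine (norm_sum_le _ _).trans (Finset.sum_le_sum fun i _ => (norm_crossT_le _).trans ?_)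
  exact Finset.single_le_sum (f := fun j => (crossN x) (a i j)) (fun j _ => apply_nonneg _ _)
    (Finset.mem_univ i)

lemma matT_mul_comm (a b : Matrix (Fin q) (Fin q) (Cross x)) : matT (a * b) = matT (b * a) := by
  simp only [matT_apply, Matrix.mul_apply, map_sum]
  rw [Finset.sum_comm]
  exact Finset.sum_congr rfl fun i _ => Finset.sum_congr rfl fun j _ => crossT_mul_comm _ _

/-! ### The twisted homomorphisms -/

open Classical in
/-- The indicator function of the conjugacy class of `x`. -/
noncomputable def classInd (x h : H) : ℂ := if IsConj x h then 1 else 0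

open Classical in
/-- **Homotopy argument.** If `x` admits a Lipschitz homomorphism, then for almost idempotent
matrices over the group algebra which stay close to a fixed one, the trace at the class of `x`
tends to zero. -/
theorem class_tendsto (hx : LipHom x) (a : ℕ → Matrix (Fin q) (Fin q) ℂ[H])
    (a0 : Matrix (Fin q) (Fin q) ℂ[H]) (hclose : ∀ j, matN q (l1 H) (a j - a0) ≤ 1 / 8)
    (hidem : Tendsto (fun j => matN q (l1 H) (a j * a j - a j)) atTop (𝓝 0)) :
    Tendsto (fun j => wtr (classInd x) (a j)) atTop (𝓝 0) := by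
  obtain ⟨F, c, hc, hFx, hFz, hFb⟩ := hx
  choose Lb hLb using hFb
  -- representatives and the cocycle
  have hrep : ∀ y : ClassOf x, ∃ w : H, w * x * w⁻¹ = y.1 := fun y => isConj_iff.mp y.2
  choose rep hrep using hrep
  let f : H → ClassOf x → ℝ := fun h y => F (rep y) - F (h⁻¹ * rep y)
  have hf : ∀ h (y : ClassOf x) w, w * x * w⁻¹ = y.1 → f h y = F w - F (h⁻¹ * w) := by
    intro h y w hw
    have hz : (rep y)⁻¹ * w * x = x * ((rep y)⁻¹ * w) := by
      have h1 : w * x * w⁻¹ = rep y * x * (rep y)⁻¹ := by rw [hw, hrep]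
      calc (rep y)⁻¹ * w * x = (rep y)⁻¹ * (w * x * w⁻¹) * w := by group
        _ = x * ((rep y)⁻¹ * w) := by rw [h1]; group
    have h2 := hFz _ hz (rep y) (h⁻¹ * rep y)
    rw [mul_inv_cancel_left, mul_assoc h⁻¹, mul_inv_cancel_left] at h2
    show F (rep y) - F (h⁻¹ * rep y) = _
    linarith
  have hfmul : ∀ h k (y : ClassOf x), f (h * k) y = f h y + f k (h⁻¹ • y) := by
    intro h k y
    rw [hf k (h⁻¹ • y) (h⁻¹ * rep y) (by rw [smul_val, ← hrep y]; group)]
    show F (rep y) - F ((h * k)⁻¹ * rep y) = F (rep y) - F (h⁻¹ * rep y) + _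
    rw [mul_inv_rev, mul_assoc]
    ring
  have hfdiag : ∀ y : ClassOf x, f y.1 y = c := by
    intro y
    show F (rep y) - F (y.1⁻¹ * rep y) = c
    have h1 : y.1⁻¹ * rep y = rep y * x⁻¹ := by rw [← hrep y]; group
    have h2 := hFx (rep y * x⁻¹)
    rw [inv_mul_cancel_right] at h2
    rw [h1]; linarith
  have hfb : ∀ h y, |f h y| ≤ Lb h⁻¹ := fun h y => by
    have := hLb h⁻¹ (rep y)
    rw [abs_sub_comm] at this
    exact this
  -- the twisted homomorphisms
  let u : ℝ → H → (ClassOf x →ᵇ ℂ) := fun θ h =>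
    BoundedContinuousFunction.ofNormedAddCommGroupDiscrete
      (fun y => Complex.exp ((θ * f h y : ℝ) * Complex.I)) 1
      (fun y => (Complex.norm_exp_ofReal_mul_I _).le)
  have hu_apply : ∀ θ h y, u θ h y = Complex.exp ((θ * f h y : ℝ) * Complex.I) :=
    fun _ _ _ => rfl
  have hu_mul : ∀ θ h k, u θ h * h • u θ k = u θ (h * k) := by
    intro θ h k
    ext y
    rw [BoundedContinuousFunction.mul_apply, act_apply, hu_apply, hu_apply, hu_apply, hfmul,
      ← Complex.exp_add]
    push_cast; ring_nf
  have hu_one : ∀ θ, u θ 1 = 1 := by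
    intro θ; ext y
    rw [hu_apply]
    show Complex.exp ((θ * (F (rep y) - F (1⁻¹ * rep y)) : ℝ) * Complex.I) = 1
    simp
  have hu_zero : ∀ h, u 0 h = 1 := by
    intro h; ext y; rw [hu_apply]; simp
  let g : ℝ → H →* Cross x := fun θ =>
    { toFun := fun h => SkewMonoidAlgebra.single h (u θ h)
      map_one' := by rw [hu_one]; rfl
      map_mul' := fun h k => by rw [SkewMonoidAlgebra.single_mul_single, hu_mul] }
  let s : ℂ →+* Cross x :=
    SkewMonoidAlgebra.singleOneRingHom.comp (algebraMap ℂ (ClassOf x →ᵇ ℂ))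
  have hcomm : ∀ θ r h, Commute (s r) (g θ h) := by
    intro θ r h
    show SkewMonoidAlgebra.single 1 _ * SkewMonoidAlgebra.single h _ =
      SkewMonoidAlgebra.single h _ * SkewMonoidAlgebra.single 1 _
    rw [SkewMonoidAlgebra.single_mul_single, SkewMonoidAlgebra.single_mul_single, one_mul, mul_one,
      one_smul, mul_comm]
    rfl
  let π : ℝ → (ℂ[H] →+* Cross x) := fun θ => MonoidAlgebra.liftNCRingHom s (g θ) (hcomm θ)
  have hπ : ∀ θ h r, π θ (MonoidAlgebra.single h r) = SkewMonoidAlgebra.single h (r • u θ h) := by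
    intro θ h r
    rw [MonoidAlgebra.liftNCRingHom_single]
    show SkewMonoidAlgebra.single 1 _ * SkewMonoidAlgebra.single h _ = _
    rw [SkewMonoidAlgebra.single_mul_single, one_mul, one_smul, Algebra.smul_def]
  have hπsum : ∀ θ (b : ℂ[H]),
      π θ b = ∑ h ∈ b.coeff.support, SkewMonoidAlgebra.single h (b.coeff h • u θ h) := by
    intro θ b
    conv_lhs => rw [← MonoidAlgebra.sum_coeff_single b]
    rw [map_finsuppSum]
    exact Finset.sum_congr rfl fun h _ => hπ θ h _
  have hNsum : ∀ (t : Finset H) (φ : H → Cross x), (crossN x) (∑ i ∈ t, φ i) ≤ ∑ i ∈ t, (crossN x) (φ i) :=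
    fun t φ => Finset.le_sum_of_subadditive _ (map_zero _).le (map_add_le_add _) t φ
  have hπle : ∀ θ b, (crossN x) (π θ b) ≤ (l1 H) b := by
    intro θ b
    rw [hπsum]
    refine (hNsum _ _).trans (Finset.sum_le_sum fun h _ => ?_)
    rw [crossN_single, norm_smul]
    exact mul_le_of_le_one_right (norm_nonneg _)
      ((norm_le zero_le_one).mpr fun y => (Complex.norm_exp_ofReal_mul_I _).le)
  let W : ℂ[H] → ℝ := fun b => ∑ h ∈ b.coeff.support, ‖b.coeff h‖ * |Lb h⁻¹|
  have hπdiff : ∀ θ b, (crossN x) (π θ b - π 0 b) ≤ |θ| * W b := by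
    intro θ b
    rw [hπsum, hπsum, ← Finset.sum_sub_distrib, Finset.mul_sum]
    refine (hNsum _ _).trans (Finset.sum_le_sum fun h _ => ?_)
    rw [sub_eq_add_neg, ← SkewMonoidAlgebra.single_neg, ← SkewMonoidAlgebra.single_add,
      crossN_single, ← sub_eq_add_neg, hu_zero, ← smul_sub, norm_smul]
    have hd : ‖u θ h - 1‖ ≤ |θ| * |Lb h⁻¹| := by
      refine (norm_le (by positivity)).mpr fun y => ?_
      show ‖u θ h y - 1‖ ≤ _
      rw [hu_apply, mul_comm _ Complex.I]
      refine (Real.norm_exp_I_mul_ofReal_sub_one_le).trans ?_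
      rw [Real.norm_eq_abs, abs_mul]
      exact mul_le_mul_of_nonneg_left ((hfb h y).trans (le_abs_self _)) (abs_nonneg _)
    calc _ ≤ ‖b.coeff h‖ * (|θ| * |Lb h⁻¹|) := mul_le_mul_of_nonneg_left hd (norm_nonneg _)
      _ = _ := by ring
  let P : ℝ → Matrix (Fin q) (Fin q) ℂ[H] →+* Matrix (Fin q) (Fin q) (Cross x) :=
    fun θ => (π θ).mapMatrix
  have hPle : ∀ θ b, matN q (crossN x) (P θ b) ≤ matN q (l1 H) b := fun θ b => by
    rw [matN_apply, matN_apply]
    exact Finset.sum_le_sum fun i _ => Finset.sum_le_sum fun j _ => hπle θ _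
  have hT : ∀ θ b, matT (P θ b) = Complex.exp ((θ * c : ℝ) * Complex.I) * wtr (classInd x) b := by
    intro θ b
    rw [matT_apply, wtr, Finset.mul_sum]
    refine Finset.sum_congr rfl fun i _ => ?_
    show crossT (π θ (b i i)) = _
    rw [hπsum, map_sum, wsum_apply, Finsupp.mul_sum]
    refine Finset.sum_congr rfl fun h _ => ?_
    rw [crossT_single, evalIf_apply]
    unfold classInd
    by_cases hh : IsConj x h
    · rw [dif_pos hh, BoundedContinuousFunction.smul_apply, hu_apply,
        show f h (ClassOf.mk h hh) = c from hfdiag (ClassOf.mk h hh)]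
      dsimp only
      rw [if_pos hh, mul_one, smul_eq_mul, mul_comm]
    · rw [dif_neg hh]
      dsimp only
      rw [if_neg hh, mul_zero, mul_zero]
  -- choice of `θ`
  let C : ℝ := ∑ i, ∑ j, W (a0 i j)
  have hC : 0 ≤ C := by positivity
  set θ : ℝ := min (1 / (4 * (C + 1))) (1 / |c|) with hθ
  have hθ0 : 0 < θ := lt_min (by positivity) (by positivity)
  have hθc : Complex.exp ((θ * c : ℝ) * Complex.I) ≠ 1 := by
    rw [ne_eq, Complex.exp_eq_one_iff]
    rintro ⟨k, hk⟩
    have hk' : θ * c = k * (2 * Real.pi) := by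
      have := congrArg Complex.im hk
      simpa using this
    have h1 : |θ * c| ≤ 1 := by
      rw [abs_mul, abs_of_pos hθ0]
      exact (le_div_iff₀ (abs_pos.mpr hc)).mp (min_le_right _ _)
    rw [hk', abs_mul, abs_of_pos Real.two_pi_pos] at h1
    by_cases hk0 : k = 0
    · rw [hk0] at hk'
      simp [hθ0.ne', hc] at hk'
    · have : (1 : ℝ) ≤ |(k : ℝ)| := by exact_mod_cast Int.one_le_abs hk0
      nlinarith [Real.pi_gt_three]
  have hP0 : matN q (crossN x) (P θ a0 - P 0 a0) ≤ 1 / 4 := by
    calc matN q (crossN x) (P θ a0 - P 0 a0) ≤ ∑ i, ∑ j, θ * W (a0 i j) := by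
          rw [matN_apply]
          refine Finset.sum_le_sum fun i _ => Finset.sum_le_sum fun j _ => ?_
          have := hπdiff θ (a0 i j)
          rwa [abs_of_pos hθ0] at this
      _ = θ * C := by simp [C, Finset.mul_sum]
      _ ≤ 1 / (4 * (C + 1)) * (C + 1) :=
          mul_le_mul (min_le_left _ _) (by linarith) hC (by positivity)
      _ = 1 / 4 := by field_simp
  have hD : ∀ j, matN q (crossN x) (P θ (a j) - P 0 (a j)) ≤ 1 / 2 := by
    intro j
    have e : P θ (a j) - P 0 (a j)
        = P θ (a j - a0) + ((P θ a0 - P 0 a0) + -(P 0 (a j - a0))) := by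
      rw [map_sub, map_sub]; abel
    rw [e]
    have := map_add_le_add (matN q (crossN x)) (P θ (a j - a0))
      ((P θ a0 - P 0 a0) + -(P 0 (a j - a0)))
    have := map_add_le_add (matN q (crossN x)) (P θ a0 - P 0 a0) (-(P 0 (a j - a0)))
    have := map_neg_eq_map (matN q (crossN x)) (P 0 (a j - a0))
    have := (hPle θ _).trans (hclose j)
    have := (hPle 0 _).trans (hclose j)
    linarith
  have hid : ∀ t, Tendsto (fun j => matN q (crossN x) (P t (a j) * P t (a j) - P t (a j))) atTop
      (𝓝 0) := fun t =>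
    squeeze_zero (fun j => apply_nonneg _ _)
      (fun j => by rw [← map_mul, ← map_sub]; exact hPle t _) hidem
  have hbd : ∀ t j, matN q (crossN x) (P t (a j)) ≤ matN q (l1 H) a0 + 1 / 8 := fun t j => by
    refine (hPle t _).trans ?_
    have := map_add_le_add (matN q (l1 H)) (a j - a0) a0
    rw [sub_add_cancel] at this
    linarith [hclose j]
  have hlim := tendsto_trace_sub (matN q (crossN x)) matT matT_mul_comm norm_matT_le (hid θ) (hid 0)
    (hbd θ) (hbd 0) (by norm_num : (1 / 2 : ℝ) < 1) hD
  simp only [hT, zero_mul, Complex.ofReal_zero, Complex.exp_zero, one_mul, ← sub_one_mul] at hlim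
  have := hlim.const_mul (Complex.exp ((θ * c : ℝ) * Complex.I) - 1)⁻¹
  rw [mul_zero] at this
  exact this.congr fun j => by rw [inv_mul_cancel_left₀ (sub_ne_zero.mpr hθc)]

end Crossed

end Vale.Agent.P184
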