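import Mathlib
import Vale.Agent.P184.Crossed

/-!
# P184: vanishing of the Hattori–Stallings coefficient from finitely generated data
-/

namespace Vale.Agent.P184

open Filter Topology
open scoped MonoidAlgebra

variable {G : Type*} [Group G] {q : ℕ}

/-- If every element conjugate to `g` in a finitely generated subgroup admits a Lipschitz
homomorphism there, then the coefficient at the class of `g` of every idempotent vanishes. -/
theorem hsCoeff_eq_zero (g : G)
    (hloc : ∀ (s : Finset G) (x : Subgroup.closure (s : Set G)), IsConj g (x : G) → LipHom x)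
    {e : Fin q → Fin q → G → ℂ} (he : IsL1Idempotent e) : hsCoeff e g = 0 := by
  classical
  obtain ⟨hsum, hidem⟩ := he
  set E : ℝ := ∑ i, ∑ j, ∑' x, ‖e i j x‖ with hEdef
  have htot0 : ∀ i j, 0 ≤ ∑' x, ‖e i j x‖ := fun i j => tsum_nonneg fun x => norm_nonneg _
  have hEij : ∀ i j, ∑' x, ‖e i j x‖ ≤ E := fun i j =>
    le_trans (Finset.single_le_sum (f := fun j => ∑' x, ‖e i j x‖) (fun j _ => htot0 i j)
      (Finset.mem_univ j))
      (Finset.single_le_sum (f := fun i => ∑ j, ∑' x, ‖e i j x‖)
        (fun i _ => Finset.sum_nonneg fun j _ => htot0 i j) (Finset.mem_univ i))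
  have hE0 : 0 ≤ E := Finset.sum_nonneg fun i _ => Finset.sum_nonneg fun j _ => htot0 i j
  have hpt : ∀ i j x, ‖e i j x‖ ≤ E := fun i j x =>
    ((hsum i j).le_tsum x fun y _ => norm_nonneg _).trans (hEij i j)
  set K : ℝ := (q : ℝ) * q * (2 * q * E + 1) with hK
  have hK0 : 0 ≤ K := by positivity
  set B : ℝ := q + 16 * (E + 1) * K + 1 with hB
  have hB0 : 0 < B := by positivity
  rw [← norm_eq_zero]
  refine le_antisymm (le_of_forall_pos_le_add fun η hη => ?_) (norm_nonneg _)
  rw [zero_add]
  set δ : ℝ := min (η / (2 * B)) (1 / (16 * B)) with hδ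
  have hδ0 : 0 < δ := lt_min (by positivity) (by positivity)
  -- finite support
  obtain ⟨S, hS⟩ : ∃ S : Finset G, ∀ i j, ∑' x, ‖e i j x‖ - ∑ x ∈ S, ‖e i j x‖ ≤ δ := by
    have hev : ∀ᶠ S in (atTop : Filter (Finset G)),
        ∀ i j, ∑' x, ‖e i j x‖ - ∑ x ∈ S, ‖e i j x‖ ≤ δ := by
      refine eventually_all.mpr fun i => eventually_all.mpr fun j => ?_
      filter_upwards [(hsum i j).hasSum.eventually (eventually_gt_nhds
        (show ∑' x, ‖e i j x‖ - δ < ∑' x, ‖e i j x‖ by linarith))] with S hS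
      linarith
    exact hev.exists
  let F : Fin q → Fin q → G → ℂ := fun i j x => if x ∈ S then e i j x else 0
  let d : Fin q → Fin q → G → ℝ := fun i j x => if x ∈ S then 0 else ‖e i j x‖
  have hd0 : ∀ i j x, 0 ≤ d i j x := fun i j x => by simp only [d]; split_ifs <;> simp
  have hdle : ∀ i j x, d i j x ≤ ‖e i j x‖ := fun i j x => by simp only [d]; split_ifs <;> simp
  have hFe : ∀ i j x, ‖F i j x - e i j x‖ = d i j x := fun i j x => by
    simp only [F, d]; split_ifs <;> simp
  have hFle : ∀ i j x, ‖F i j x‖ ≤ ‖e i j x‖ := fun i j x => by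
    simp only [F]; split_ifs <;> simp
  have hdsum : ∀ i j, Summable (d i j) := fun i j =>
    (hsum i j).of_nonneg_of_le (hd0 i j) (hdle i j)
  have hdtot : ∀ i j, ∑' x, d i j x ≤ δ := by
    intro i j
    have e1 : d i j = fun x => ‖e i j x‖ - if x ∈ S then ‖e i j x‖ else 0 := by
      funext x; simp only [d]; split_ifs <;> simp
    rw [e1, (hsum i j).tsum_sub (summable_of_ne_finset_zero (s := S) fun x hx => if_neg hx),
      tsum_eq_sum (s := S) fun x hx => if_neg hx, Finset.sum_ite_mem, Finset.inter_self]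
    exact hS i j
  -- the approximation over the subgroup
  let H := Subgroup.closure (S : Set G)
  let S' : Finset H := S.subtype (· ∈ H)
  have hSH : ∀ x ∈ S, x ∈ H := fun x hx => Subgroup.subset_closure hx
  let a0 : Matrix (Fin q) (Fin q) ℂ[H] :=
    Matrix.of fun i j => ∑ h ∈ S', MonoidAlgebra.single h (e i j h)
  have hS' : ∀ h : H, h ∈ S' ↔ (h : G) ∈ S := fun h => Finset.mem_subtype
  have hcoeff : ∀ i j (h : H), (a0 i j).coeff h = F i j h := by
    intro i j h
    simp only [a0, Matrix.of_apply, MonoidAlgebra.coeff_sum, Finsupp.finsetSum_apply,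
      MonoidAlgebra.coeff_single, Finsupp.single_apply, Finset.sum_ite_eq', hS', F]
  have hsupp : ∀ i j, (a0 i j).coeff.support ⊆ S' := by
    intro i j h hh
    rw [Finsupp.mem_support_iff, hcoeff] at hh
    rw [hS']
    by_contra hc
    exact hh (if_neg hc)
  have hsubsum : ∀ (φ : G → ℝ), ∑ h ∈ S', φ h = ∑ x ∈ S, φ x := fun φ => by
    rw [Finset.sum_subtype_eq_sum_filter, Finset.filter_true_of_mem hSH]
  have hsubsumC : ∀ (φ : G → ℂ), ∑ h ∈ S', φ h = ∑ x ∈ S, φ x := fun φ => by
    rw [Finset.sum_subtype_eq_sum_filter, Finset.filter_true_of_mem hSH]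
  have hN0 : matN q (l1 H) a0 ≤ E := by
    rw [matN_apply]
    refine Finset.sum_le_sum fun i _ => Finset.sum_le_sum fun j _ => ?_
    rw [l1_eq_sum_of_subset (hsupp i j)]
    simp only [hcoeff]
    rw [hsubsum (fun x => ‖F i j x‖)]
    exact (Finset.sum_le_sum fun x _ => hFle i j x).trans
      ((hsum i j).sum_le_tsum S fun x _ => norm_nonneg _)
  -- `a0` is almost idempotent
  have hε0 : matN q (l1 H) (a0 * a0 - a0) ≤ K * δ := by
    rw [matN_apply]
    refine (Finset.sum_le_sum fun i _ => Finset.sum_le_sum fun j _ =>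
      (?_ : l1 H ((a0 * a0 - a0) i j) ≤ (2 * q * E + 1) * δ)).trans (le_of_eq ?_)
    swap
    · simp [hK]; ring
    let T : Finset G := ((a0 * a0 - a0) i j).coeff.support.map (Function.Embedding.subtype _)
    let φ : Fin q → G → G → ℝ := fun k x u =>
      d i k u * ‖e k j (u⁻¹ * x)‖ + ‖e i k u‖ * d k j (u⁻¹ * x)
    have hφs : ∀ k x, Summable (φ k x) := fun k x =>
      Summable.add
        (((hdsum i k).mul_right E).of_nonneg_of_le
          (fun u => mul_nonneg (hd0 _ _ _) (norm_nonneg _))
          (fun u => mul_le_mul_of_nonneg_left (hpt _ _ _) (hd0 _ _ _)))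
        (((hsum i k).mul_right E).of_nonneg_of_le
          (fun u => mul_nonneg (norm_nonneg _) (hd0 _ _ _))
          (fun u => mul_le_mul_of_nonneg_left ((hdle _ _ _).trans (hpt _ _ _)) (norm_nonneg _)))
    have hpt' : ∀ h : H, ‖((a0 * a0 - a0) i j).coeff h‖ ≤ ∑ k, ∑' u, φ k h u + d i j h := by
      intro h
      have hprod : ∀ k, (a0 i k * a0 k j).coeff h = ∑' u, F i k u * F k j (u⁻¹ * h) := by
        intro k
        rw [MonoidAlgebra.coeff_mul_apply_left,
          Finsupp.sum_of_support_subset _ (hsupp i k) _ (by simp),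
          tsum_eq_sum (s := S) fun u hu => by simp [F, hu]]
        simp only [hcoeff, Subgroup.coe_mul, Subgroup.coe_inv]
        exact hsubsumC (fun u => F i k u * F k j (u⁻¹ * (h : G)))
      have hval : ((a0 * a0 - a0) i j).coeff h
          = ∑ k, ∑' u, F i k u * F k j (u⁻¹ * h) - F i j h := by
        rw [Matrix.sub_apply, MonoidAlgebra.coeff_sub, Finsupp.sub_apply, hcoeff,
          Matrix.mul_apply, MonoidAlgebra.coeff_sum, Finsupp.finsetSum_apply]
        simp only [hprod]
      have he2 : ∀ k, Summable fun u => e i k u * e k j (u⁻¹ * h) := fun k =>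
        Summable.of_norm_bounded ((hsum i k).mul_right E) fun u => by
          rw [norm_mul]; exact mul_le_mul_of_nonneg_left (hpt _ _ _) (norm_nonneg _)
      have hF2 : ∀ k, Summable fun u => F i k u * F k j (u⁻¹ * h) := fun k =>
        Summable.of_norm_bounded ((hsum i k).mul_right E) fun u => by
          rw [norm_mul]
          exact mul_le_mul (hFle _ _ _) ((hFle _ _ _).trans (hpt _ _ _)) (norm_nonneg _)
            (norm_nonneg _)
      have hsplit : ((a0 * a0 - a0) i j).coeff h
          = ∑ k, ∑' u, (F i k u * F k j (u⁻¹ * h) - e i k u * e k j (u⁻¹ * h))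
            - (F i j h - e i j h) := by
        rw [hval]
        simp only [fun k => (hF2 k).tsum_sub (he2 k), Finset.sum_sub_distrib, ← hidem i j h]
        ring
      rw [hsplit]
      refine (norm_sub_le _ _).trans (add_le_add ((norm_sum_le _ _).trans
        (Finset.sum_le_sum fun k _ => ?_)) (hFe i j h).le)
      refine tsum_of_norm_bounded (hφs k h).hasSum fun u => ?_
      have key : F i k u * F k j (u⁻¹ * h) - e i k u * e k j (u⁻¹ * h)
          = (F i k u - e i k u) * F k j (u⁻¹ * h)
            + e i k u * (F k j (u⁻¹ * h) - e k j (u⁻¹ * h)) := by ring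
      rw [key]
      refine (norm_add_le _ _).trans ?_
      rw [norm_mul, norm_mul, hFe, hFe]
      exact add_le_add (mul_le_mul_of_nonneg_left (hFle _ _ _) (hd0 _ _ _)) le_rfl
    have hshift : ∀ (f : G → ℝ), (∀ x, 0 ≤ f x) → Summable f → ∀ u,
        ∑ x ∈ T, f (u⁻¹ * x) ≤ ∑' x, f x := by
      intro f hf hfs u
      have := hfs.sum_le_tsum (T.map (Equiv.mulLeft u⁻¹).toEmbedding) fun x _ => hf x
      simpa [Finset.sum_map] using this
    have hk : ∀ k, ∑ x ∈ T, ∑' u, φ k x u ≤ δ * E + E * δ := by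
      intro k
      rw [← Summable.tsum_finsetSum fun x _ => hφs k x]
      have hb : ∀ u, ∑ x ∈ T, φ k x u ≤ d i k u * E + ‖e i k u‖ * δ := fun u => by
        simp only [φ, Finset.sum_add_distrib, ← Finset.mul_sum]
        exact add_le_add
          (mul_le_mul_of_nonneg_left ((hshift _ (fun x => norm_nonneg _) (hsum k j) u).trans
            (hEij k j)) (hd0 _ _ _))
          (mul_le_mul_of_nonneg_left ((hshift _ (hd0 k j) (hdsum k j) u).trans (hdtot k j))
            (norm_nonneg _))
      refine (Summable.tsum_le_tsum hb (summable_sum fun x _ => hφs k x)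
        (((hdsum i k).mul_right E).add ((hsum i k).mul_right δ))).trans ?_
      rw [((hdsum i k).mul_right E).tsum_add ((hsum i k).mul_right δ), tsum_mul_right,
        tsum_mul_right]
      exact add_le_add (mul_le_mul_of_nonneg_right (hdtot i k) hE0)
        (mul_le_mul_of_nonneg_right (hEij i k) hδ0.le)
    calc l1 H ((a0 * a0 - a0) i j)
        ≤ ∑ h ∈ ((a0 * a0 - a0) i j).coeff.support, (∑ k, ∑' u, φ k h u + d i j h) :=
          Finset.sum_le_sum fun h _ => hpt' h
      _ = ∑ k, ∑ x ∈ T, ∑' u, φ k x u + ∑ x ∈ T, d i j x := by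
          rw [Finset.sum_add_distrib, Finset.sum_comm]
          simp [T, Finset.sum_map]
      _ ≤ ∑ _k : Fin q, (δ * E + E * δ) + δ := add_le_add (Finset.sum_le_sum fun k _ => hk k)
          (((hdsum i j).sum_le_tsum T fun x _ => hd0 i j x).trans (hdtot i j))
      _ = (2 * q * E + 1) * δ := by simp; ring
  -- Newton's iteration
  have h16 : 16 * B * δ ≤ 1 := by
    have := (le_div_iff₀ (by positivity)).mp (min_le_right (η / (2 * B)) (1 / (16 * B)))
    linarith [this]
  have hsmall8 : 8 * (E + 1) * matN q (l1 H) (a0 * a0 - a0) ≤ 8 * (E + 1) * (K * δ) :=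
    mul_le_mul_of_nonneg_left hε0 (by positivity)
  have hBK : 16 * (E + 1) * K + q ≤ B := by rw [hB]; linarith
  have h8 : 8 * (E + 1) * (K * δ) ≤ 1 / 8 := by
    nlinarith [mul_le_mul_of_nonneg_right hBK hδ0.le, mul_nonneg (Nat.cast_nonneg (α := ℝ) q) hδ0.le]
  obtain ⟨a, -, hconv, hclose⟩ := exists_newton (matN q (l1 H)) a0 (M := E + 1) (by linarith)
    (by linarith)
  -- weights
  let wG : H → ℂ := fun h => if IsConj g (h : G) then 1 else 0
  let C0 : Finset (ConjClasses H) :=
    (S'.filter fun h : H => IsConj g (h : G)).image ConjClasses.mk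
  let wR : H → ℂ := fun h => if ConjClasses.mk h ∈ C0 then 0 else wG h
  let wC : ConjClasses H → H → ℂ := fun c h => if ConjClasses.mk h = c then 1 else 0
  have hconjC : ∀ h : H, ConjClasses.mk h ∈ C0 → IsConj g (h : G) := by
    intro h hh
    obtain ⟨x, hx, hxh⟩ := Finset.mem_image.mp hh
    exact (Finset.mem_filter.mp hx).2.trans
      (MonoidHom.map_isConj H.subtype (ConjClasses.mk_eq_mk_iff_isConj.mp hxh))
  have hwR : ∀ h, ‖wR h‖ ≤ 1 := fun h => by simp only [wR, wG]; split_ifs <;> simp
  have hdecomp : ∀ b : Matrix (Fin q) (Fin q) ℂ[H],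
      wtr wG b = ∑ c ∈ C0, wtr (wC c) b + wtr wR b := by
    intro b
    simp only [wtr]
    rw [Finset.sum_comm, ← Finset.sum_add_distrib]
    refine Finset.sum_congr rfl fun i _ => ?_
    simp only [wsum_apply, Finsupp.sum]
    rw [Finset.sum_comm, ← Finset.sum_add_distrib]
    refine Finset.sum_congr rfl fun h _ => ?_
    rw [← Finset.mul_sum, ← mul_add]
    congr 1
    simp only [wC, wR, Finset.sum_ite_eq]
    by_cases hh : ConjClasses.mk h ∈ C0
    · rw [if_pos hh, if_pos hh, add_zero]
      exact if_pos (hconjC h hh)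
    · rw [if_neg hh, if_neg hh, zero_add]
  have hR0 : wtr wR a0 = 0 := by
    refine Finset.sum_eq_zero fun i _ => Finset.sum_eq_zero fun h hh => ?_
    have hS'h := hsupp i i hh
    show (a0 i i).coeff h * wR h = 0
    by_cases hg : IsConj g (h : G)
    · have : ConjClasses.mk h ∈ C0 :=
        Finset.mem_image.mpr ⟨h, Finset.mem_filter.mpr ⟨hS'h, hg⟩, rfl⟩
      simp only [wR]
      rw [if_pos this, mul_zero]
    · simp only [wR, wG]
      rw [if_neg hg, ite_self, mul_zero]
  have hC : Tendsto (fun j => ∑ c ∈ C0, wtr (wC c) (a j)) atTop (𝓝 0) := by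
    rw [show (0 : ℂ) = ∑ _c ∈ C0, (0 : ℂ) by simp]
    refine tendsto_finsetSum _ fun c hc => ?_
    obtain ⟨x, hx, rfl⟩ := Finset.mem_image.mp hc
    have hw : wC (ConjClasses.mk x) = classInd x := by
      funext h
      simp only [wC, classInd, ConjClasses.mk_eq_mk_iff_isConj, isConj_comm]
    rw [hw]
    exact class_tendsto (hloc S x (Finset.mem_filter.mp hx).2) a a0
      (fun j => ((hclose j).trans hsmall8).trans h8) hconv
  have hadd : ∀ (w : H → ℂ) (b c : Matrix (Fin q) (Fin q) ℂ[H]),
      wtr w (b - c) = wtr w b - wtr w c := fun w b c => by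
    simp [wtr, Finset.sum_sub_distrib]
  obtain ⟨J, hJ⟩ := Metric.tendsto_atTop.mp hC (η / 2) (half_pos hη)
  have hJ' := hJ J le_rfl
  rw [dist_zero_right] at hJ'
  have hdiff : ∀ w : H → ℂ, (∀ h, ‖w h‖ ≤ 1) →
      ‖wtr w (a J) - wtr w a0‖ ≤ 8 * (E + 1) * (K * δ) := fun w hw => by
    rw [← hadd]
    exact ((norm_wtr_le hw _).trans (hclose J)).trans hsmall8
  have hG1 : ∀ h, ‖wG h‖ ≤ 1 := fun h => by simp only [wG]; split_ifs <;> simp
  -- comparison with the coefficient of `e`
  have hcomp : ‖hsCoeff e g - wtr wG a0‖ ≤ q * δ := by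
    rw [hsCoeff, wtr, ← Finset.sum_sub_distrib]
    refine (norm_sum_le _ _).trans ((Finset.sum_le_sum fun i _ => ?_).trans
      (le_of_eq (by simp : ∑ _i : Fin q, δ = q * δ)))
    let ind : G → ℂ := fun x => if IsConj g x then 1 else 0
    have h1 : ∑' x : {x : G // IsConj g x}, e i i x = ∑' x, e i i x * ind x := by
      refine (tsum_subtype {x : G | IsConj g x} (e i i)).trans (tsum_congr fun x => ?_)
      simp [Set.indicator_apply, ind]
    have h2 : wsum wG (a0 i i) = ∑' x, F i i x * ind x := by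
      rw [wsum_apply, Finsupp.sum_of_support_subset _ (hsupp i i) _ (by simp),
        tsum_eq_sum (s := S) fun x hx => by simp [F, hx]]
      simp only [hcoeff]
      exact hsubsumC (fun x => F i i x * ind x)
    have hind : ∀ x, ‖ind x‖ ≤ 1 := fun x => by simp only [ind]; split_ifs <;> simp
    have hs1 : Summable fun x => e i i x * ind x :=
      Summable.of_norm_bounded (hsum i i) fun x => by
        rw [norm_mul]; exact mul_le_of_le_one_right (norm_nonneg _) (hind x)
    have hs2 : Summable fun x => F i i x * ind x :=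
      Summable.of_norm_bounded (hsum i i) fun x => by
        rw [norm_mul]
        exact (mul_le_of_le_one_right (norm_nonneg _) (hind x)).trans (hFle i i x)
    rw [h1, h2, ← hs1.tsum_sub hs2]
    refine (tsum_of_norm_bounded (hdsum i i).hasSum fun x => ?_).trans (hdtot i i)
    rw [← sub_mul, norm_mul, norm_sub_rev, hFe]
    exact mul_le_of_le_one_right (hd0 _ _ _) (hind x)
  have hbound : q * δ + 16 * (E + 1) * K * δ ≤ η / 2 := by
    have h2 := (le_div_iff₀ (by positivity)).mp (min_le_left (η / (2 * B)) (1 / (16 * B)))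
    rw [← hδ] at h2
    nlinarith [mul_le_mul_of_nonneg_right hBK hδ0.le]
  have hR := hdiff wR hwR
  rw [hR0, sub_zero] at hR
  have hG := hdiff wG hG1
  rw [norm_sub_rev] at hG
  calc ‖hsCoeff e g‖
      = ‖(hsCoeff e g - wtr wG a0) + (wtr wG a0 - wtr wG (a J))
          + (∑ c ∈ C0, wtr (wC c) (a J) + wtr wR (a J))‖ := by
        rw [← hdecomp]; ring_nf
    _ ≤ ‖hsCoeff e g - wtr wG a0‖ + ‖wtr wG a0 - wtr wG (a J)‖
          + (‖∑ c ∈ C0, wtr (wC c) (a J)‖ + ‖wtr wR (a J)‖) :=
        (norm_add₃_le).trans (add_le_add le_rfl (norm_add_le _ _))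
    _ ≤ η := by linarith

end Vale.Agent.P184
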