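import Mathlib
import Vale.Agent.P184.Main

/-!
# P184: isometric actions with positive translation length

On a metric space with the quadrilateral inequality (which holds in CAT(0) spaces) an isometry
with positive translation length has a Busemann-type function which is equivariant, up to
constants, under its whole centraliser.  This gives `LipHom`.
-/

namespace Vale.Agent.P184

open Filter Topology

/-- A bounded real sequence converges along any ultrafilter. -/
lemma exists_ultra_lim (U : Ultrafilter ℕ) {s : ℕ → ℝ} {B : ℝ} (h : ∀ n, |s n| ≤ B) :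
    ∃ l, Tendsto s U (𝓝 l) := by
  obtain ⟨l, -, hl⟩ := (isCompact_Icc (a := -B) (b := B)).ultrafilter_le_nhds (U.map s)
    (le_principal_iff.mpr (Ultrafilter.mem_map.mpr
      (Filter.univ_mem' fun n => Set.mem_preimage.mpr ⟨(abs_le.mp (h n)).1, (abs_le.mp (h n)).2⟩)))
  exact ⟨l, hl⟩

/-- Positive translation length in a space with the quadrilateral inequality gives `LipHom`. -/
theorem lipHom_of_translation {H : Type*} [Group H] {X : Type*} [MetricSpace X] [MulAction H X]
    (hiso : ∀ (h : H) (p q : X), dist (h • p) (h • q) = dist p q)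
    (hquad : ∀ a b c d : X,
      dist a c ^ 2 + dist b d ^ 2 ≤ dist a d ^ 2 + dist b c ^ 2 + 2 * dist a b * dist c d)
    (x : H) (o : X) {c : ℝ} (hc : 0 < c) (hlen : ∀ n : ℕ, c * n ≤ dist o (x ^ n • o)) :
    LipHom x := by
  set M : ℝ := dist o (x • o) with hM
  let D : ℕ → ℝ := fun n => dist o (x ^ n • o)
  let a : X → ℕ → ℝ := fun p n => (dist p (x ^ n • o) ^ 2 - D n ^ 2) / (n + 1)
  have hM0 : 0 ≤ M := dist_nonneg
  have hDle : ∀ n : ℕ, D n ≤ n * M := by
    intro n
    induction n with
    | zero => simp [D]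
    | succ n ih =>
      refine (dist_triangle o (x ^ n • o) _).trans ?_
      have h : dist (x ^ n • o) (x ^ (n + 1) • o) = M := by rw [pow_succ, mul_smul, hiso]
      rw [h]; push_cast; linarith [ih]
  -- times where the squared distance grows at least linearly
  set S : Set ℕ := {n | c ^ 2 / 2 * (n + 1) ≤ D (n + 1) ^ 2 - D n ^ 2} with hS
  have hfreq : ∃ᶠ n in atTop, n ∈ S := by
    by_contra hne
    obtain ⟨N, hN⟩ := eventually_atTop.mp (not_frequently.mp hne)
    have hgrow : ∀ k : ℕ, D (N + k) ^ 2 ≤ D N ^ 2 + c ^ 2 / 2 * (k * (N + k : ℕ)) := by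
      intro k
      induction k with
      | zero => simp
      | succ k ih =>
        have := hN (N + k) (Nat.le_add_right _ _)
        rw [hS, Set.mem_setOf_eq, not_le] at this
        rw [← Nat.add_assoc]
        push_cast at this ih ⊢
        have hck : 0 ≤ c ^ 2 / 2 * (k : ℝ) := by positivity
        nlinarith [hck]
    obtain ⟨k, hk⟩ := exists_nat_gt (max (N : ℝ) (2 * (D N ^ 2) / c ^ 2))
    have h1 := hgrow k
    have h2 : (c * (N + k : ℕ)) ^ 2 ≤ D (N + k) ^ 2 :=
      pow_le_pow_left₀ (by positivity) (hlen _) 2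
    push_cast at h1 h2
    have hk1 : 2 * (D N ^ 2) / c ^ 2 < k := lt_of_le_of_lt (le_max_right _ _) hk
    have hk2 : (N : ℝ) < k := lt_of_le_of_lt (le_max_left _ _) hk
    rw [div_lt_iff₀ (by positivity)] at hk1
    have hk0 : (1 : ℝ) ≤ k := by
      have : (0 : ℝ) < k := lt_of_le_of_lt (Nat.cast_nonneg N) hk2
      exact_mod_cast (show 0 < k by exact_mod_cast this)
    have hc2 : 0 < c ^ 2 := by positivity
    nlinarith [mul_le_mul_of_nonneg_left hk0 hc2.le, sq_nonneg (N : ℝ),
      mul_nonneg (mul_nonneg hc2.le (Nat.cast_nonneg (α := ℝ) N)) (Nat.cast_nonneg (α := ℝ) k)]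
  have : (atTop ⊓ 𝓟 S).NeBot := frequently_mem_iff_neBot.mp hfreq
  set U : Ultrafilter ℕ := Ultrafilter.of (atTop ⊓ 𝓟 S) with hU
  have hUtop : (U : Filter ℕ) ≤ atTop := (Ultrafilter.of_le _).trans inf_le_left
  have hUS : ∀ᶠ n in (U : Filter ℕ), n ∈ S :=
    (Ultrafilter.of_le (atTop ⊓ 𝓟 S)) (mem_inf_of_right (mem_principal_self S))
  -- the Busemann function
  have ha : ∀ p q n, |a p n - a q n| ≤ dist p q * (dist p o + dist q o + 2 * M) := by
    intro p q n
    have hn : (0 : ℝ) < n + 1 := by positivity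
    simp only [a]
    rw [← sub_div, sub_sub_sub_cancel_right, abs_div, abs_of_pos hn, div_le_iff₀ hn, sq_sub_sq,
      abs_mul, abs_of_nonneg (add_nonneg dist_nonneg dist_nonneg)]
    have h1 := abs_dist_sub_le p q (x ^ n • o)
    have h2 : ∀ r, dist r (x ^ n • o) ≤ dist r o + n * M := fun r =>
      (dist_triangle r o _).trans (by linarith [hDle n])
    calc (dist p (x ^ n • o) + dist q (x ^ n • o)) * |dist p (x ^ n • o) - dist q (x ^ n • o)|
        ≤ (dist p o + n * M + (dist q o + n * M)) * dist p q :=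
          mul_le_mul (add_le_add (h2 p) (h2 q)) h1 (abs_nonneg _) (by positivity)
      _ ≤ dist p q * (dist p o + dist q o + 2 * M) * (n + 1) := by
          have : 0 ≤ dist p q * (dist p o * n + dist q o * n + 2 * M) := by positivity
          nlinarith
  have hb : ∀ p, ∃ l, Tendsto (a p) U (𝓝 l) := fun p => by
    refine exists_ultra_lim U (B := dist p o * (dist p o + 2 * M)) fun n => ?_
    have := ha p o n
    rw [dist_self, add_zero] at this
    simpa [a, D] using this
  choose b hb using hb
  have hinv : Tendsto (fun n : ℕ => (1 : ℝ) / (n + 1)) U (𝓝 0) :=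
    tendsto_one_div_add_atTop_nhds_zero_nat.mono_left hUtop
  -- the Busemann function is Lipschitz
  have hblip : ∀ p q, |b p - b q| ≤ 2 * M * dist p q := by
    intro p q
    have hlim : Tendsto (fun n : ℕ => 2 * M * dist p q
        + dist p q * (dist p o + dist q o) * (1 / (n + 1))) U (𝓝 (2 * M * dist p q)) := by
      have := (tendsto_const_nhds (x := 2 * M * dist p q) (f := (U : Filter ℕ))).add
        (hinv.const_mul (dist p q * (dist p o + dist q o)))
      simpa using this
    refine le_of_tendsto_of_tendsto ((hb p).sub (hb q)).abs hlim (Eventually.of_forall fun n => ?_)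
    have hn : (0 : ℝ) < n + 1 := by positivity
    simp only [a]
    rw [← sub_div, sub_sub_sub_cancel_right, abs_div, abs_of_pos hn, div_le_iff₀ hn, sq_sub_sq,
      abs_mul, abs_of_nonneg (add_nonneg dist_nonneg dist_nonneg)]
    have h1 := abs_dist_sub_le p q (x ^ n • o)
    have h2 : ∀ r, dist r (x ^ n • o) ≤ dist r o + n * M := fun r =>
      (dist_triangle r o _).trans (by linarith [hDle n])
    calc (dist p (x ^ n • o) + dist q (x ^ n • o)) * |dist p (x ^ n • o) - dist q (x ^ n • o)|
        ≤ (dist p o + n * M + (dist q o + n * M)) * dist p q :=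
          mul_le_mul (add_le_add (h2 p) (h2 q)) h1 (abs_nonneg _) (by positivity)
      _ ≤ _ := by
          rw [add_mul (2 * M * dist p q), mul_assoc (dist p q * (dist p o + dist q o)),
            one_div_mul_cancel hn.ne']
          have : 0 ≤ 2 * M * dist p q := by positivity
          nlinarith
  -- elements commuting with `x` shift the Busemann function by constants
  have hshift : ∀ z : H, z * x = x * z → ∀ p q, b (z⁻¹ • p) - b p = b (z⁻¹ • q) - b q := by
    intro z hz p q
    have hrw : ∀ r n, a (z⁻¹ • r) n - a r n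
        = (dist r (x ^ n • z • o) ^ 2 - dist r (x ^ n • o) ^ 2) / (n + 1) := by
      intro r n
      have e : dist (z⁻¹ • r) (x ^ n • o) = dist r (x ^ n • z • o) := by
        have hc' : Commute z (x ^ n) := Commute.pow_right hz n
        rw [← hiso z (z⁻¹ • r), smul_inv_smul, ← mul_smul, ← mul_smul, hc'.eq]
      simp only [a, e]; ring
    have hlim : Tendsto (fun n => (a (z⁻¹ • p) n - a p n) - (a (z⁻¹ • q) n - a q n)) U (𝓝 0) := by
      refine squeeze_zero_norm
        (a := fun n : ℕ => 2 * dist p q * dist (z • o) o * (1 / ((n : ℝ) + 1))) (fun n => ?_)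
        (by simpa using hinv.const_mul (2 * dist p q * dist (z • o) o))
      have hn : (0 : ℝ) < n + 1 := by positivity
      rw [hrw, hrw, ← sub_div, Real.norm_eq_abs, abs_div, abs_of_pos hn, mul_one_div]
      refine div_le_div_of_nonneg_right ?_ hn.le
      have h1 := hquad p q (x ^ n • z • o) (x ^ n • o)
      have h2 := hquad q p (x ^ n • z • o) (x ^ n • o)
      rw [hiso] at h1 h2
      rw [dist_comm q p] at h2
      rw [abs_le]; constructor <;> linarith
    have := tendsto_nhds_unique (((hb (z⁻¹ • p)).sub (hb p)).sub ((hb (z⁻¹ • q)).sub (hb q))) hlim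
    linarith
  -- `x` itself shifts by a positive constant
  have hxshift : ∀ p, c ^ 2 / 2 ≤ b (x⁻¹ • p) - b p := by
    intro p
    have hlim : Tendsto (fun n => a (x⁻¹ • p) n - a p n
        + 2 * dist p o * M * (1 / ((n : ℝ) + 1))) U (𝓝 (b (x⁻¹ • p) - b p)) := by
      have := ((hb (x⁻¹ • p)).sub (hb p)).add (hinv.const_mul (2 * dist p o * M))
      simpa using this
    refine ge_of_tendsto hlim (hUS.mono fun n hn => ?_)
    have hn0 : (0 : ℝ) < n + 1 := by positivity
    have e : dist (x⁻¹ • p) (x ^ n • o) = dist p (x ^ (n + 1) • o) := by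
      rw [← hiso x (x⁻¹ • p), smul_inv_smul, ← mul_smul, ← pow_succ']
    have hd : dist (x ^ n • o) (x ^ (n + 1) • o) = M := by rw [pow_succ, mul_smul, hiso]
    have h1 := hquad o p (x ^ (n + 1) • o) (x ^ n • o)
    rw [dist_comm (x ^ (n + 1) • o) (x ^ n • o), hd, dist_comm o p] at h1
    have h3 : c ^ 2 / 2 * (n + 1) ≤ D (n + 1) ^ 2 - D n ^ 2 := hn
    simp only [a, e]
    rw [mul_one_div, ← sub_div, ← add_div, le_div_iff₀ hn0]
    simp only [D] at h3 ⊢
    linarith
  refine ⟨fun y => b (y⁻¹ • o), b (x⁻¹ • o) - b o, ?_, fun y => ?_, fun z hz y y' => ?_, fun h => ?_⟩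
  · have := hxshift o
    have : 0 < c ^ 2 / 2 := by positivity
    intro h0; linarith
  · dsimp only
    rw [mul_inv_rev, mul_smul]
    linarith [hshift x rfl (y⁻¹ • o) o]
  · dsimp only
    rw [mul_inv_rev, mul_inv_rev, mul_smul, mul_smul]
    exact hshift z hz _ _
  · refine ⟨2 * M * dist (h⁻¹ • o) o, fun y => ?_⟩
    dsimp only
    rw [mul_inv_rev, mul_smul]
    refine (hblip _ _).trans (le_of_eq ?_)
    rw [hiso]

/-- Vanishing at elements of positive translation length. -/
theorem hsCoeff_eq_zero_of_translation {G : Type*} [Group G] {X : Type*} [MetricSpace X]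
    [MulAction G X] (hiso : ∀ (h : G) (p q : X), dist (h • p) (h • q) = dist p q)
    (hquad : ∀ a b c d : X,
      dist a c ^ 2 + dist b d ^ 2 ≤ dist a d ^ 2 + dist b c ^ 2 + 2 * dist a b * dist c d)
    (g : G) (o : X) {c : ℝ} (hc : 0 < c) (hlen : ∀ n : ℕ, c * n ≤ dist o (g ^ n • o))
    {q : ℕ} {e : Fin q → Fin q → G → ℂ} (he : IsL1Idempotent e) : hsCoeff e g = 0 := by
  refine hsCoeff_eq_zero g (fun s x hx => ?_) he
  obtain ⟨k, hk⟩ := isConj_iff.mp hx
  refine lipHom_of_translation (H := Subgroup.closure (s : Set G)) (fun h p q => hiso (h : G) p q)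
    hquad x (k • o) hc fun n => ?_
  show c * n ≤ dist (k • o) (((x ^ n : Subgroup.closure (s : Set G)) : G) • k • o)
  rw [SubmonoidClass.coe_pow, ← hk, conj_pow, ← mul_smul, inv_mul_cancel_right, mul_smul, hiso]
  exact hlen n

end Vale.Agent.P184
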