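import Mathlib
import Vale.Agent.P184.Main

/-!
# P184: Lipschitz characters of centralisers, and amenable centralisers

A homomorphism on the centraliser of `g`, nonzero at `g` and bounded by a multiple of a length,
gives vanishing at the class of `g`.  If `g` is undistorted and its centraliser has an invariant
mean, such a homomorphism is obtained by averaging a Cesàro limit of Busemann differences.
-/

namespace Vale.Agent.P184

open Filter Topology

/-- There is an invariant mean on the bounded real functions on `Z`: amenability. -/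
def HasInvariantMean (Z : Type*) [Group Z] : Prop :=
  ∃ M : (Z → ℝ) → ℝ,
    (∀ f f' : Z → ℝ, (∃ B, ∀ w, |f w| ≤ B) → (∃ B, ∀ w, |f' w| ≤ B) →
      M (f + f') = M f + M f') ∧
    (∀ a : ℝ, M (fun _ => a) = a) ∧
    (∀ (f : Z → ℝ) (B : ℝ), (∀ w, |f w| ≤ B) → |M f| ≤ B) ∧
    ∀ (f : Z → ℝ) (z : Z), (∃ B, ∀ w, |f w| ≤ B) → M (fun w => f (z * w)) = M f

/-- A bounded homomorphism on the centraliser gives `LipHom`. -/
theorem lipHom_of_char {H : Type*} [Group H] (x : H) (ℓ : H → ℝ)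
    (hmul : ∀ a b, ℓ (a * b) ≤ ℓ a + ℓ b) (hinv : ∀ a, ℓ a⁻¹ = ℓ a)
    (φ : Subgroup.centralizer ({x} : Set H) → ℝ) (hφ : ∀ a b, φ (a * b) = φ a + φ b)
    (hφx : φ ⟨x, Subgroup.mem_centralizer_singleton_iff.mpr rfl⟩ ≠ 0) (L D : ℝ)
    (hL : 0 ≤ L) (hb : ∀ z, |φ z| ≤ L * ℓ (z : H) + D) : LipHom x := by
  let S : H → Subgroup.centralizer ({x} : Set H) → ℝ := fun y z => φ z + L * ℓ (y * (z : H)⁻¹)
  have hbdd : ∀ y, BddBelow (Set.range (S y)) := by
    intro y
    refine ⟨-(L * ℓ y + D), ?_⟩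
    rintro _ ⟨z, rfl⟩
    have h1 : ℓ (z : H) ≤ ℓ y + ℓ (y * (z : H)⁻¹) := by
      have := hmul (y * (z : H)⁻¹)⁻¹ y
      rw [hinv, show (y * (z : H)⁻¹)⁻¹ * y = z by group] at this
      linarith
    have := (abs_le.mp (hb z)).1
    have := mul_le_mul_of_nonneg_left h1 hL
    simp only [S]
    linarith
  have hshift : ∀ (w : Subgroup.centralizer ({x} : Set H)) (y : H),
      ⨅ z, S (y * w) z = φ w + ⨅ z, S y z := by
    intro w y
    rw [add_ciInf (hbdd y)]
    refine (Equiv.mulRight w).iInf_congr ?_ |>.symm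
    intro z
    simp only [S, Equiv.coe_mulRight, hφ, Subgroup.coe_mul]
    rw [mul_inv_rev, ← mul_assoc, mul_inv_cancel_right]
    ring
  have hlip : ∀ h y, ⨅ z, S (h * y) z ≤ L * ℓ h + ⨅ z, S y z := by
    intro h y
    rw [add_ciInf (hbdd y)]
    refine ciInf_mono (hbdd _) fun z => ?_
    simp only [S]
    have := mul_le_mul_of_nonneg_left (hmul h (y * (z : H)⁻¹)) hL
    rw [← mul_assoc] at this
    linarith
  refine ⟨fun y => ⨅ z, S y z, φ ⟨x, Subgroup.mem_centralizer_singleton_iff.mpr rfl⟩, hφx,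
    fun y => ?_, fun z hz y y' => ?_, fun h => ?_⟩
  · have := hshift ⟨x, Subgroup.mem_centralizer_singleton_iff.mpr rfl⟩ y
    simp only at this ⊢
    linarith
  · have hzZ : z ∈ Subgroup.centralizer ({x} : Set H) :=
      Subgroup.mem_centralizer_singleton_iff.mpr hz
    linarith [hshift ⟨z, hzZ⟩ y, hshift ⟨z, hzZ⟩ y']
  · refine ⟨L * ℓ h, fun y => abs_le.mpr ⟨?_, ?_⟩⟩
    · have := hlip h⁻¹ (h * y)
      rw [inv_mul_cancel_left, hinv] at this
      linarith
    · linarith [hlip h y]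

/-- A bounded homomorphism on the centraliser gives vanishing. -/
theorem hsCoeff_eq_zero_of_char {G : Type*} [Group G] (g : G) (ℓ : G → ℝ)
    (hmul : ∀ a b, ℓ (a * b) ≤ ℓ a + ℓ b) (hinv : ∀ a, ℓ a⁻¹ = ℓ a)
    (φ : Subgroup.centralizer ({g} : Set G) → ℝ) (hφ : ∀ a b, φ (a * b) = φ a + φ b)
    (hφg : φ ⟨g, Subgroup.mem_centralizer_singleton_iff.mpr rfl⟩ ≠ 0) (L D : ℝ) (hL : 0 ≤ L)
    (hb : ∀ z, |φ z| ≤ L * ℓ (z : G) + D)
    {q : ℕ} {e : Fin q → Fin q → G → ℂ} (he : IsL1Idempotent e) : hsCoeff e g = 0 := by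
  refine hsCoeff_eq_zero g (fun s x hx => ?_) he
  obtain ⟨w, hw⟩ := isConj_iff.mp hx
  have hmemZ : ∀ a : Subgroup.centralizer ({x} : Set (Subgroup.closure (s : Set G))),
      w⁻¹ * ((a : Subgroup.closure (s : Set G)) : G) * w ∈ Subgroup.centralizer ({g} : Set G) := by
    intro a
    refine Subgroup.mem_centralizer_singleton_iff.mpr ?_
    have := congrArg (fun u : Subgroup.closure (s : Set G) => (u : G))
      (Subgroup.mem_centralizer_singleton_iff.mp a.2)
    simp only [Subgroup.coe_mul] at this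
    rw [← hw] at this
    calc w⁻¹ * ((a : Subgroup.closure (s : Set G)) : G) * w * g
        = w⁻¹ * (((a : Subgroup.closure (s : Set G)) : G) * (w * g * w⁻¹)) * w := by group
      _ = g * (w⁻¹ * ((a : Subgroup.closure (s : Set G)) : G) * w) := by rw [this]; group
  refine lipHom_of_char x (fun a => ℓ (w⁻¹ * (a : G) * w)) (fun a b => ?_) (fun a => ?_)
    (fun a => φ ⟨_, hmemZ a⟩) (fun a b => ?_) ?_ L D hL fun a => hb _
  · refine le_trans (le_of_eq ?_) (hmul _ _)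
    congr 1; rw [Subgroup.coe_mul]; group
  · rw [← hinv (w⁻¹ * (a : G) * w)]
    congr 1; rw [Subgroup.coe_inv]; group
  · rw [← hφ]
    congr 1
    exact Subtype.ext (by simp only [Subgroup.coe_mul]; group)
  · convert hφg using 2
    exact Subtype.ext (by show w⁻¹ * (x : G) * w = g; rw [← hw]; group)

/-- An undistorted element with amenable centraliser has a bounded homomorphism on it. -/
theorem exists_char_of_mean {G : Type*} [Group G] (g : G) (ℓ : G → ℝ)
    (hmul : ∀ a b, ℓ (a * b) ≤ ℓ a + ℓ b) (hinv : ∀ a, ℓ a⁻¹ = ℓ a) {c : ℝ} (hc : 0 < c)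
    (hlin : ∀ n : ℕ, c * n ≤ ℓ (g ^ n))
    (hZ : HasInvariantMean (Subgroup.centralizer ({g} : Set G))) :
    ∃ φ : Subgroup.centralizer ({g} : Set G) → ℝ, (∀ a b, φ (a * b) = φ a + φ b) ∧
      φ ⟨g, Subgroup.mem_centralizer_singleton_iff.mpr rfl⟩ ≠ 0 ∧ ∀ z, |φ z| ≤ ℓ (z : G) := by
  have hsub : ∀ a b : G, |ℓ (a * b) - ℓ b| ≤ ℓ a := by
    intro a b
    have h1 := hmul a b
    have h2 := hmul a⁻¹ (a * b)
    rw [inv_mul_cancel_left, hinv] at h2
    rw [abs_le]; constructor <;> linarith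
  have hsub' : ∀ a b : G, |ℓ (a * b) - ℓ a| ≤ ℓ b := by
    intro a b
    have h1 := hmul a b
    have h2 := hmul (a * b) b⁻¹
    rw [mul_inv_cancel_right, hinv] at h2
    rw [abs_le]; constructor <;> linarith
  let Φn : G → ℕ → ℝ := fun y N =>
    (∑ n ∈ Finset.range (N + 1), (ℓ (y * (g⁻¹) ^ n) - ℓ ((g⁻¹) ^ n))) / (N + 1)
  have hΦdiff : ∀ h y N, |Φn (h * y) N - Φn y N| ≤ ℓ h := by
    intro h y N
    have hN : (0 : ℝ) < N + 1 := by positivity
    simp only [Φn]
    rw [← sub_div, abs_div, abs_of_pos hN, div_le_iff₀ hN, ← Finset.sum_sub_distrib]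
    refine (Finset.abs_sum_le_sum_abs _ _).trans ?_
    refine (Finset.sum_le_card_nsmul _ _ (ℓ h) fun n _ => ?_).trans ?_
    · rw [sub_sub_sub_cancel_right, mul_assoc]
      exact hsub h _
    · rw [Finset.card_range, nsmul_eq_mul]; push_cast; linarith
  have hΦ1 : ∀ N, Φn 1 N = 0 := fun N => by simp [Φn]
  have hΦb : ∀ y N, |Φn y N| ≤ ℓ y := by
    intro y N
    simpa [hΦ1] using hΦdiff y 1 N
  obtain ⟨U, hU⟩ : ∃ U : Ultrafilter ℕ, (U : Filter ℕ) ≤ atTop :=
    ⟨Ultrafilter.of atTop, Ultrafilter.of_le _⟩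
  have hlim : ∀ {s : ℕ → ℝ} {B : ℝ}, (∀ n, |s n| ≤ B) → ∃ l, Tendsto s U (𝓝 l) := by
    intro s B h
    obtain ⟨l, -, hl⟩ := (isCompact_Icc (a := -B) (b := B)).ultrafilter_le_nhds (U.map s)
      (le_principal_iff.mpr (Ultrafilter.mem_map.mpr
        (Filter.univ_mem' fun n => Set.mem_preimage.mpr ⟨(abs_le.mp (h n)).1, (abs_le.mp (h n)).2⟩)))
    exact ⟨l, hl⟩
  choose Φ hΦ using fun y => hlim (hΦb y)
  have hΦlip : ∀ h y, |Φ (h * y) - Φ y| ≤ ℓ h := fun h y =>
    le_of_tendsto ((hΦ (h * y)).sub (hΦ y)).abs (Eventually.of_forall (hΦdiff h y))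
  -- translation by `g` on the right shifts `Φ` by a constant, at most `-c` in absolute value
  have hpow : ∀ n : ℕ, ℓ (g ^ n) ≤ n * ℓ g + ℓ 1 := by
    intro n
    induction n with
    | zero => simp
    | succ n ih =>
      rw [pow_succ]
      refine (hmul _ _).trans ?_
      push_cast
      linarith
  have h0 : ∀ a, 0 ≤ ℓ a := fun a => (abs_nonneg _).trans (hsub a 1)
  obtain ⟨t, ht⟩ := hlim (s := fun N : ℕ => ℓ (g ^ N) / (N + 1)) (B := ℓ g + ℓ 1) fun N => by
    have hN : (0 : ℝ) < N + 1 := by positivity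
    rw [abs_div, abs_of_pos hN, abs_of_nonneg (h0 _), div_le_iff₀ hN]
    nlinarith [hpow N, h0 g, h0 1, (Nat.cast_nonneg N : (0 : ℝ) ≤ N)]
  have hsmall : ∀ C : ℝ, Tendsto (fun N : ℕ => C / ((N : ℝ) + 1)) U (𝓝 0) := by
    intro C
    have := (tendsto_one_div_add_atTop_nhds_zero_nat.const_mul C).mono_left hU
    simpa [div_eq_mul_inv] using this
  have htc : c ≤ t := by
    refine le_of_tendsto_of_tendsto (f := fun N : ℕ => c - c / ((N : ℝ) + 1))
      (g := fun N : ℕ => ℓ (g ^ N) / ((N : ℝ) + 1)) ?_ ht (Eventually.of_forall fun N => ?_)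
    · simpa using tendsto_const_nhds.sub (hsmall c)
    · have hN : (0 : ℝ) < N + 1 := by positivity
      rw [le_div_iff₀ hN, sub_mul, div_mul_cancel₀ _ hN.ne']
      linarith [hlin N]
  have hΦg : ∀ y, Φ (y * g) = Φ y - t := by
    intro y
    have heq : ∀ N : ℕ, Φn (y * g) N - Φn y N
        = (ℓ (y * g) - ℓ (y * (g⁻¹) ^ N)) / ((N : ℝ) + 1) := by
      intro N
      simp only [Φn]
      rw [← sub_div, ← Finset.sum_sub_distrib]
      congr 1
      let a : ℕ → ℝ := fun n => ℓ (y * g * (g⁻¹) ^ n)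
      have ha : ∀ n, ℓ (y * (g⁻¹) ^ n) = a (n + 1) := fun n => by
        simp only [a]; rw [pow_succ']; group
      simp only [sub_sub_sub_cancel_right, ha]
      show ∑ n ∈ Finset.range (N + 1), (a n - a (n + 1)) = ℓ (y * g) - a (N + 1)
      rw [Finset.sum_range_sub']
      simp [a]
    have h2 : Tendsto (fun N => Φn (y * g) N - Φn y N + ℓ (g ^ N) / ((N : ℝ) + 1)) U (𝓝 0) := by
      refine squeeze_zero_norm (a := fun N : ℕ => (ℓ (y * g) + ℓ y) / ((N : ℝ) + 1))
        (fun N => ?_) (hsmall _)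
      have hN : (0 : ℝ) < N + 1 := by positivity
      rw [heq, ← add_div, Real.norm_eq_abs, abs_div, abs_of_pos hN]
      refine div_le_div_of_nonneg_right ?_ hN.le
      have h3 := hsub y ((g⁻¹) ^ N)
      rw [inv_pow, hinv] at h3
      rw [inv_pow]
      rw [abs_le] at h3 ⊢
      constructor <;> linarith [h0 (y * g)]
    have := tendsto_nhds_unique (((hΦ (y * g)).sub (hΦ y)).add ht) h2
    linarith
  obtain ⟨M, hadd, hconst, hbound, hinvM⟩ := hZ
  let d : Subgroup.centralizer ({g} : Set G) → Subgroup.centralizer ({g} : Set G) → ℝ :=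
    fun z w => Φ ((z : G) * w) - Φ w
  have hd : ∀ z w, |d z w| ≤ ℓ (z : G) := fun z w => hΦlip _ _
  refine ⟨fun z => M (d z), fun a b => ?_, ?_, fun z => hbound _ _ (hd z)⟩
  · have h1 : d (a * b) = (fun w => d a (b * w)) + d b := by
      funext w
      simp only [d, Pi.add_apply, Subgroup.coe_mul, mul_assoc]
      ring
    show M (d (a * b)) = M (d a) + M (d b)
    rw [h1, hadd _ _ ⟨_, fun w => hd a (b * w)⟩ ⟨_, hd b⟩, hinvM _ _ ⟨_, hd a⟩]
  · have h1 : d ⟨g, Subgroup.mem_centralizer_singleton_iff.mpr rfl⟩ = fun _ => -t := by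
      funext w
      simp only [d]
      rw [← Subgroup.mem_centralizer_singleton_iff.mp w.2, hΦg]
      ring
    show M (d ⟨g, _⟩) ≠ 0
    rw [h1, hconst]
    intro h
    linarith

/-- Vanishing at undistorted elements with amenable centraliser. -/
theorem hsCoeff_eq_zero_of_mean {G : Type*} [Group G] (g : G) (ℓ : G → ℝ)
    (hmul : ∀ a b, ℓ (a * b) ≤ ℓ a + ℓ b) (hinv : ∀ a, ℓ a⁻¹ = ℓ a) {c : ℝ} (hc : 0 < c)
    (hlin : ∀ n : ℕ, c * n ≤ ℓ (g ^ n))
    (hZ : HasInvariantMean (Subgroup.centralizer ({g} : Set G)))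
    {q : ℕ} {e : Fin q → Fin q → G → ℂ} (he : IsL1Idempotent e) : hsCoeff e g = 0 := by
  obtain ⟨φ, hφ, hφg, hb⟩ := exists_char_of_mean g ℓ hmul hinv hc hlin hZ
  exact hsCoeff_eq_zero_of_char g ℓ hmul hinv φ hφ hφg 1 0 zero_le_one
    (fun z => by simpa using hb z) he

/-- The ℓ¹-Bass conjecture for groups whose elements of infinite order are undistorted with
amenable centralisers and which have finitely many classes of elements of finite order. -/
theorem bass_of_mean {G : Type*} [Group G]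
    (hinf : ∀ g : G, ¬ IsOfFinOrder g → ∃ (ℓ : G → ℝ) (c : ℝ), (∀ a b, ℓ (a * b) ≤ ℓ a + ℓ b) ∧
      (∀ a, ℓ a⁻¹ = ℓ a) ∧ 0 < c ∧ (∀ n : ℕ, c * n ≤ ℓ (g ^ n)) ∧
      HasInvariantMean (Subgroup.centralizer ({g} : Set G)))
    (hfin : (ConjClasses.mk '' {g : G | IsOfFinOrder g}).Finite) :
    ∃ F : Finset (ConjClasses G), (∀ C ∈ F, ∃ g : G, ConjClasses.mk g = C ∧ IsOfFinOrder g) ∧
      ∀ (q : ℕ) (e : Fin q → Fin q → G → ℂ), IsL1Idempotent e →
        ∀ g : G, ConjClasses.mk g ∉ F → hsCoeff e g = 0 := by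
  refine ⟨hfin.toFinset, fun C hC => ?_, fun q e he g hg => ?_⟩
  · obtain ⟨g, hg, rfl⟩ := (Set.Finite.mem_toFinset _).mp hC
    exact ⟨g, rfl, hg⟩
  · obtain ⟨ℓ, c, hmul, hinv, hc, hlin, hZ⟩ := hinf g fun h =>
      hg ((Set.Finite.mem_toFinset _).mpr ⟨g, h, rfl⟩)
    exact hsCoeff_eq_zero_of_mean g ℓ hmul hinv hc hlin hZ he

end Vale.Agent.P184
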