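import Mathlib
import Vale.Agent.P184.Defs

/-!
# P184: the coefficient at the identity when all other coefficients vanish
-/

namespace Vale.Agent.P184

/-- If all coefficients away from the identity vanish, the coefficient at the identity is the rank
of the augmentation of `e`, hence a natural number. -/
theorem exists_nat_hsCoeff_one {G : Type*} [Group G] {q : ℕ} {e : Fin q → Fin q → G → ℂ}
    (he : IsL1Idempotent e) (h : ∀ g : G, g ≠ 1 → hsCoeff e g = 0) :
    ∃ m : ℕ, hsCoeff e (1 : G) = m := by
  classical
  obtain ⟨hsum, hidem⟩ := he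
  have hsum' : ∀ i j, Summable (e i j) := fun i j => (hsum i j).of_norm
  let A : Matrix (Fin q) (Fin q) ℂ := Matrix.of fun i j => ∑' x, e i j x
  have hA : A * A = A := by
    ext i j
    simp only [A, Matrix.mul_apply, Matrix.of_apply]
    let φ : G × G ≃ G × G :=
      { toFun := fun p => (p.1, p.1 * p.2)
        invFun := fun p => (p.1, p.1⁻¹ * p.2)
        left_inv := fun p => by simp
        right_inv := fun p => by simp }
    have hk : ∀ k, (Summable fun x => ∑' h, e i k h * e k j (h⁻¹ * x)) ∧
        (∑' x, e i k x) * (∑' x, e k j x) = ∑' x, ∑' h, e i k h * e k j (h⁻¹ * x) := by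
      intro k
      have hp := summable_mul_of_summable_norm (hsum i k) (hsum k j)
      have hp' : Summable fun p : G × G => e i k p.1 * e k j (p.1⁻¹ * p.2) :=
        (φ.symm.summable_iff (f := fun p : G × G => e i k p.1 * e k j p.2)).mpr hp
      have hswap : Summable (Function.uncurry fun h x => e i k h * e k j (h⁻¹ * x)) := hp'
      refine ⟨?_, ?_⟩
      · exact ((Equiv.prodComm G G).summable_iff.mpr hp').prod
      · rw [tsum_mul_tsum_of_summable_norm (hsum i k) (hsum k j),
          ← φ.symm.tsum_eq (fun p : G × G => e i k p.1 * e k j p.2), hswap.tsum_comm]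
        exact hp'.tsum_prod
    rw [Finset.sum_congr rfl fun k _ => (hk k).2, ← Summable.tsum_finsetSum fun k _ => (hk k).1]
    exact tsum_congr fun x => (hidem i j x).symm
  -- the trace of `A` is the sum of all coefficients
  have hfib : ∀ i, ∑' x, e i i x
      = ∑' c : ConjClasses G, ∑' y : {x : G // ConjClasses.mk x = c}, e i i y := by
    intro i
    rw [← (Equiv.sigmaFiberEquiv (ConjClasses.mk (α := G))).tsum_eq (e i i)]
    exact ((Equiv.sigmaFiberEquiv _).summable_iff.mpr (hsum' i i)).tsum_sigma
  have hfibs : ∀ i, Summable fun c : ConjClasses G =>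
      ∑' y : {x : G // ConjClasses.mk x = c}, e i i y := fun i =>
    ((Equiv.sigmaFiberEquiv (ConjClasses.mk (α := G))).summable_iff.mpr (hsum' i i)).sigma
  have hclass : ∀ g : G, ∑ i, ∑' y : {x : G // ConjClasses.mk x = ConjClasses.mk g}, e i i y
      = hsCoeff e g := fun g =>
    Finset.sum_congr rfl fun i _ =>
      (Equiv.subtypeEquivRight fun x : G => by
          rw [ConjClasses.mk_eq_mk_iff_isConj, isConj_comm]).tsum_eq
        (fun y : {x : G // IsConj g x} => e i i y)
  have htr : Matrix.trace A = hsCoeff e (1 : G) := by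
    simp only [Matrix.trace, Matrix.diag, A, Matrix.of_apply, hfib]
    rw [← Summable.tsum_finsetSum fun i _ => hfibs i, tsum_eq_single (ConjClasses.mk (1 : G))]
    · exact hclass 1
    · intro c hc
      obtain ⟨g, rfl⟩ := ConjClasses.mk_surjective c
      rw [hclass g]
      exact h g fun hg => hc (by rw [hg])
  have hproj : LinearMap.IsProj (LinearMap.range A.mulVecLin) A.mulVecLin := by
    refine ⟨fun x => LinearMap.mem_range_self _ x, ?_⟩
    rintro x ⟨y, rfl⟩
    rw [Matrix.mulVecLin_apply, Matrix.mulVecLin_apply, Matrix.mulVec_mulVec, hA]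
  refine ⟨Module.finrank ℂ (LinearMap.range A.mulVecLin), ?_⟩
  rw [← htr, ← hproj.trace]
  show _ = LinearMap.trace ℂ _ (Matrix.toLin' A)
  rw [Matrix.trace_toLin'_eq]

end Vale.Agent.P184
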