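import Mathlib
import Vale.Agent.P184.Main

/-!
# P184: undistorted elements with virtually cyclic centraliser

If a symmetric subadditive length grows linearly on the powers of `g` and `⟨g⟩` has finite index
in its centraliser, then the coefficient at the class of `g` vanishes.  The length may come from an
isometric action on any metric space.
-/

namespace Vale.Agent.P184

/-- Linear growth of powers and a virtually cyclic centraliser give `LipHom`. -/
theorem lipHom_of_length {H : Type*} [Group H] (x : H) (ℓ : H → ℝ)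
    (hmul : ∀ a b, ℓ (a * b) ≤ ℓ a + ℓ b) (hinv : ∀ a, ℓ a⁻¹ = ℓ a) {c : ℝ} (hc : 0 < c)
    (hlin : ∀ n : ℕ, c * n ≤ ℓ (x ^ n))
    (hfin : (Subgroup.zpowers (⟨x, Subgroup.mem_centralizer_singleton_iff.mpr rfl⟩ :
      Subgroup.centralizer ({x} : Set H))).FiniteIndex) : LipHom x := by
  have h0 : ∀ a, 0 ≤ ℓ a := by
    intro a
    have h1 := hmul a a⁻¹
    rw [mul_inv_cancel, hinv] at h1
    have h2 := hmul 1 1
    rw [one_mul] at h2
    linarith
  set Z := Subgroup.centralizer ({x} : Set H)
  set g : Z := ⟨x, Subgroup.mem_centralizer_singleton_iff.mpr rfl⟩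
  set C := Subgroup.zpowers g
  have hcomm : ∀ z : Z, z * g = g * z := fun z =>
    Subtype.ext (Subgroup.mem_centralizer_singleton_iff.mp z.2)
  have hCc : C ≤ Subgroup.center Z :=
    Subgroup.zpowers_le.mpr (Subgroup.mem_center_iff.mpr hcomm)
  have : C.FiniteIndex := hfin
  have : (Subgroup.center Z).FiniteIndex := Subgroup.finiteIndex_of_le hCc
  have : C.Normal := ⟨fun a ha z => by
    rw [Subgroup.mem_center_iff.mp (hCc ha) z, mul_inv_cancel_right]; exact ha⟩
  set k := (Subgroup.center Z).index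
  set m := C.index
  have hk : (k : ℝ) ≠ 0 := by exact_mod_cast Subgroup.FiniteIndex.index_ne_zero
  have hm : (m : ℝ) ≠ 0 := by exact_mod_cast Subgroup.FiniteIndex.index_ne_zero
  have hzlin : ∀ n : ℤ, c * |(n : ℝ)| ≤ ℓ (x ^ n) := by
    intro n
    obtain ⟨j, rfl | rfl⟩ := n.eq_nat_or_neg
    · simpa using hlin j
    · simpa [zpow_neg, hinv] using hlin j
  have hinj : ∀ a b : ℤ, g ^ a = g ^ b → a = b := by
    intro a b hab
    by_contra hne
    have h1 : x ^ (a - b) = 1 := by
      have := congrArg (fun z : Z => (z : H)) hab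
      simp only [SubgroupClass.coe_zpow] at this
      rw [zpow_sub, show x ^ a = x ^ b from this, mul_inv_cancel]
    obtain ⟨j, hj⟩ := exists_nat_gt (ℓ 1 / c)
    rw [div_lt_iff₀ hc] at hj
    have h2 := hzlin ((a - b) * j)
    rw [zpow_mul, h1, one_zpow] at h2
    push_cast at h2
    rw [abs_mul, Nat.abs_cast] at h2
    have h3 : (1 : ℝ) ≤ |(a : ℝ) - b| := by
      exact_mod_cast Int.one_le_abs (sub_ne_zero.mpr hne)
    nlinarith [mul_le_mul_of_nonneg_right h3 (Nat.cast_nonneg (α := ℝ) j)]
  have hmem : ∀ z : Z, ∃ n : ℤ, g ^ n = (z ^ k) ^ m := fun z =>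
    Subgroup.mem_zpowers_iff.mp (C.pow_index_mem (z ^ k))
  choose ν hν using hmem
  have hν_mul : ∀ a b : Z, ν (a * b) = ν a + ν b := by
    intro a b
    apply hinj
    rw [zpow_add, hν, hν, hν]
    have h1 : (a * b) ^ k = a ^ k * b ^ k := by
      calc (a * b) ^ k = ((MonoidHom.transferCenterPow Z (a * b) : Subgroup.center Z) : Z) :=
            (MonoidHom.transferCenterPow_apply _).symm
        _ = _ := by
            rw [map_mul, Subgroup.coe_mul, MonoidHom.transferCenterPow_apply,
              MonoidHom.transferCenterPow_apply]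
    have h2 : Commute (a ^ k) (b ^ k) :=
      Subgroup.mem_center_iff.mp ((Subgroup.center Z).pow_index_mem b) (a ^ k)
    rw [h1, h2.mul_pow]
  have hνg : ν g = k * m := by
    apply hinj
    rw [hν, ← pow_mul, ← zpow_natCast]
    push_cast; rfl
  have hpow : ∀ (a : H) (n : ℕ), ℓ (a ^ n) ≤ n * ℓ a + ℓ 1 := by
    intro a n
    induction n with
    | zero => simp
    | succ n ih =>
      rw [pow_succ]
      refine (hmul _ _).trans ?_
      push_cast
      linarith
  -- the bound on the homomorphism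
  set L : ℝ := (k * m : ℝ) / c
  set D : ℝ := ℓ 1 / c
  have hL : 0 ≤ L := by positivity
  have hνb : ∀ z : Z, |(ν z : ℝ)| ≤ L * ℓ z + D := by
    intro z
    have h1 := hzlin (ν z)
    have h2 : x ^ (ν z) = ((z : H) ^ k) ^ m := by
      have := congrArg (fun w : Z => (w : H)) (hν z)
      simpa [g] using this
    rw [h2, ← pow_mul] at h1
    have h3 := hpow (z : H) (k * m)
    push_cast at h3
    have h4 : L * ℓ z + D = ((k * m : ℝ) * ℓ z + ℓ 1) / c := by simp only [L, D]; ring
    rw [h4, le_div_iff₀ hc]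
    linarith
  -- McShane extension
  let S : H → Z → ℝ := fun y z => ν z + L * ℓ (y * (z : H)⁻¹)
  have hbdd : ∀ y, BddBelow (Set.range (S y)) := by
    intro y
    refine ⟨-(L * ℓ y + D), ?_⟩
    rintro _ ⟨z, rfl⟩
    have h1 : ℓ (z : H) ≤ ℓ y + ℓ (y * (z : H)⁻¹) := by
      have := hmul (y * (z : H)⁻¹)⁻¹ y
      rw [hinv, show (y * (z : H)⁻¹)⁻¹ * y = z by group] at this
      linarith
    have := (abs_le.mp (hνb z)).1
    have := mul_le_mul_of_nonneg_left h1 hL
    simp only [S]
    linarith
  have hshift : ∀ (w : Z) (y : H), ⨅ z, S (y * w) z = ν w + ⨅ z, S y z := by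
    intro w y
    rw [add_ciInf (hbdd y)]
    refine (Equiv.mulRight w).iInf_congr ?_ |>.symm
    intro z
    simp only [S, Equiv.coe_mulRight, hν_mul, Subgroup.coe_mul]
    push_cast
    rw [mul_inv_rev, ← mul_assoc, mul_inv_cancel_right]
    ring
  have hlip : ∀ h y, ⨅ z, S (h * y) z ≤ L * ℓ h + ⨅ z, S y z := by
    intro h y
    rw [add_ciInf (hbdd y)]
    refine ciInf_mono (hbdd _) fun z => ?_
    simp only [S]
    have := mul_le_mul_of_nonneg_left (hmul h (y * (z : H)⁻¹)) hL
    rw [← mul_assoc] at this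
    linarith
  refine ⟨fun y => ⨅ z, S y z, (ν g : ℝ), ?_, fun y => ?_, fun z hz y y' => ?_, fun h => ?_⟩
  · rw [hνg]; push_cast; positivity
  · have := hshift g y
    simp only [g] at this ⊢
    linarith
  · have hzZ : z ∈ Z := Subgroup.mem_centralizer_singleton_iff.mpr hz
    linarith [hshift ⟨z, hzZ⟩ y, hshift ⟨z, hzZ⟩ y']
  · refine ⟨L * ℓ h, fun y => abs_le.mpr ⟨?_, ?_⟩⟩
    · have := hlip h⁻¹ (h * y)
      rw [inv_mul_cancel_left, hinv] at this
      linarith
    · linarith [hlip h y]

/-- Vanishing at undistorted elements with virtually cyclic centraliser. -/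
theorem hsCoeff_eq_zero_of_length {G : Type*} [Group G] (g : G) (ℓ : G → ℝ)
    (hmul : ∀ a b, ℓ (a * b) ≤ ℓ a + ℓ b) (hinv : ∀ a, ℓ a⁻¹ = ℓ a) {c : ℝ} (hc : 0 < c)
    (hlin : ∀ n : ℕ, c * n ≤ ℓ (g ^ n))
    (hfin : (Subgroup.zpowers (⟨g, Subgroup.mem_centralizer_singleton_iff.mpr rfl⟩ :
      Subgroup.centralizer ({g} : Set G))).FiniteIndex)
    {q : ℕ} {e : Fin q → Fin q → G → ℂ} (he : IsL1Idempotent e) : hsCoeff e g = 0 := by
  refine hsCoeff_eq_zero g (fun s x hx => ?_) he
  obtain ⟨w, hw⟩ := isConj_iff.mp hx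
  refine lipHom_of_length x (fun a => ℓ (w⁻¹ * (a : G) * w)) (fun a b => ?_) (fun a => ?_) hc
    (fun n => ?_) ?_
  · refine le_trans (le_of_eq ?_) (hmul _ _)
    congr 1; rw [Subgroup.coe_mul]; group
  · rw [← hinv (w⁻¹ * (a : G) * w)]
    congr 1; rw [Subgroup.coe_inv]; group
  · rw [show w⁻¹ * ((x ^ n : Subgroup.closure (s : Set G)) : G) * w = g ^ n by
      rw [SubmonoidClass.coe_pow, ← hw, conj_pow]; group]
    exact hlin n
  · set ZG := Subgroup.centralizer ({g} : Set G)
    set ZH := Subgroup.centralizer ({x} : Set (Subgroup.closure (s : Set G)))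
    have hmemZ : ∀ a : ZH, w⁻¹ * ((a : Subgroup.closure (s : Set G)) : G) * w ∈ ZG := by
      intro a
      refine Subgroup.mem_centralizer_singleton_iff.mpr ?_
      have := congrArg (fun u : Subgroup.closure (s : Set G) => (u : G))
        (Subgroup.mem_centralizer_singleton_iff.mp a.2)
      simp only [Subgroup.coe_mul] at this
      rw [← hw] at this
      calc w⁻¹ * ((a : Subgroup.closure (s : Set G)) : G) * w * g
          = w⁻¹ * (((a : Subgroup.closure (s : Set G)) : G) * (w * g * w⁻¹)) * w := by group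
        _ = g * (w⁻¹ * ((a : Subgroup.closure (s : Set G)) : G) * w) := by rw [this]; group
    let f : ZH →* ZG :=
      { toFun := fun a => ⟨_, hmemZ a⟩
        map_one' := Subtype.ext (by simp)
        map_mul' := fun a b => Subtype.ext (by simp only [Subgroup.coe_mul]; group) }
    have hfinj : Function.Injective f := fun a b hab => by
      have := congrArg Subtype.val hab
      exact Subtype.ext (Subtype.ext (mul_left_cancel (mul_right_cancel this)))
    have hfg : f ⟨x, Subgroup.mem_centralizer_singleton_iff.mpr rfl⟩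
        = ⟨g, Subgroup.mem_centralizer_singleton_iff.mpr rfl⟩ :=
      Subtype.ext (by show w⁻¹ * (x : G) * w = g; rw [← hw]; group)
    have hco : Subgroup.zpowers (⟨x, Subgroup.mem_centralizer_singleton_iff.mpr rfl⟩ : ZH)
        = (Subgroup.zpowers (⟨g, Subgroup.mem_centralizer_singleton_iff.mpr rfl⟩ : ZG)).comap f := by
      rw [← hfg, ← MonoidHom.map_zpowers, Subgroup.comap_map_eq_self_of_injective hfinj]
    rw [hco]
    refine ⟨?_⟩
    rw [Subgroup.index_comap]
    exact fun h => hfin.index_ne_zero (Subgroup.index_eq_zero_of_relIndex_eq_zero h)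

end Vale.Agent.P184
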