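import Mathlib

/-!
# P184: absolute values separating a non-root of unity from the unit circle
-/

namespace Vale.Agent.P184

open IsDedekindDomain

/-- In a number field an element which is not a root of unity has some absolute value `≠ 1`. -/
lemma exists_abv_numberField {L : Type*} [Field L] [NumberField L] (a : L) (_ha : a ≠ 0)
    (h : ∀ k : ℕ, 0 < k → a ^ k ≠ 1) : ∃ v : AbsoluteValue L ℝ, v a ≠ 1 := by
  by_contra hcon
  push Not at hcon
  have hint : IsIntegral ℤ a := by
    have hle : ∀ w : HeightOneSpectrum (NumberField.RingOfIntegers L), w.valuation L a ≤ 1 := by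
      intro w
      have hb : (1 : NNReal) < 2 := by norm_num
      have h1 := hcon (w.adicAbv hb)
      have h2 : WithZeroMulInt.toNNReal (ne_zero_of_lt hb) (w.valuation L a) = 1 :=
        NNReal.coe_eq_one.1 h1
      rw [(WithZeroMulInt.toNNReal_eq_one_iff _ _ hb.ne').1 h2]
    obtain ⟨r, hr⟩ := HeightOneSpectrum.mem_integers_of_valuation_le_one L a hle
    exact hr ▸ r.2
  obtain ⟨k, hk, hk'⟩ := NumberField.Embeddings.pow_eq_one_of_norm_eq_one L ℂ hint (fun φ =>
    hcon (NumberField.place φ))
  exact h k hk hk'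

/-- The absolute value at infinity of a rational function field. -/
noncomputable def inftyAbv (P : Type*) [Field P] [DecidableEq (RatFunc P)] :
    AbsoluteValue (RatFunc P) ℝ where
  toFun r := (WithZeroMulInt.toNNReal (e := 2) two_ne_zero (RatFunc.inftyValuation P r) : ℝ)
  map_mul' _ _ := by simp
  nonneg' _ := NNReal.coe_nonneg _
  eq_zero' _ := by simp
  add_le' r s := by
    have hm := (WithZeroMulInt.toNNReal_strictMono (e := 2) one_lt_two).monotone
    refine le_trans (NNReal.coe_le_coe.2 (hm ((RatFunc.inftyValuation P).map_add r s))) ?_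
    rw [hm.map_max, NNReal.coe_max]
    exact max_le (le_add_of_nonneg_right (NNReal.coe_nonneg _))
      (le_add_of_nonneg_left (NNReal.coe_nonneg _))

/-- Transport an absolute value to the image of a field homomorphism. -/
lemma exists_subfield_of_hom {F Ω : Type*} [Field F] [Field Ω] (v : AbsoluteValue F ℝ)
    (ι : F →+* Ω) {a : F} {μ : Ω} (ha : ι a = μ) (hv : v a ≠ 1) :
    ∃ (F₁ : Subfield Ω) (w : AbsoluteValue F₁ ℝ) (hμ : μ ∈ F₁), w ⟨μ, hμ⟩ ≠ 1 := by
  let e : F ≃+* ι.fieldRange := RingEquiv.ofBijective ι.rangeRestrictField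
    ⟨ι.rangeRestrictField.injective, ι.rangeRestrictField_bijective.2⟩
  refine ⟨ι.fieldRange, v.comp (f := e.symm.toRingHom) e.symm.injective, ⟨a, ha⟩, ?_⟩
  have : (⟨μ, ⟨a, ha⟩⟩ : ι.fieldRange) = e a := Subtype.ext ha.symm
  rw [this]
  show v (e.symm (e a)) ≠ 1
  rwa [RingEquiv.symm_apply_apply]

/-- Over a field, a transcendental element generates a rational function field with an absolute
value at which it is not a unit. -/
lemma exists_abv_transcendental {P Ω : Type*} [Field P] [Field Ω] [Algebra P Ω] (μ : Ω)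
    (h : Transcendental P μ) :
    ∃ (F₁ : Subfield Ω) (w : AbsoluteValue F₁ ℝ) (hμ : μ ∈ F₁), w ⟨μ, hμ⟩ ≠ 1 := by
  classical
  have hinj : Function.Injective (Polynomial.aeval (R := P) μ) :=
    transcendental_iff_injective.1 h
  refine exists_subfield_of_hom (inftyAbv P) (RatFunc.liftAlgHom (Polynomial.aeval (R := P) μ)
    (nonZeroDivisors_le_comap_nonZeroDivisors_of_injective _ hinj)).toRingHom
    (a := RatFunc.X) ?_ ?_
  · show (RatFunc.liftAlgHom _ _) RatFunc.X = μ
    rw [← RatFunc.algebraMap_X, RatFunc.liftAlgHom_apply]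
    simp
  · show ((WithZeroMulInt.toNNReal (e := 2) two_ne_zero (RatFunc.inftyValuation P RatFunc.X) :
      NNReal) : ℝ) ≠ 1
    rw [Ne, NNReal.coe_eq_one, WithZeroMulInt.toNNReal_eq_one_iff _ _ (by norm_num),
      RatFunc.inftyValuation.X]
    exact fun e => one_ne_zero (WithZero.exp_injective (e.trans WithZero.exp_zero.symm))

/-- Any element which is not a root of unity lies in a subfield with an absolute value at which
it is not a unit. -/
theorem exists_subfield_abv {Ω : Type*} [Field Ω] (μ : Ω) (h0 : μ ≠ 0)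
    (h : ∀ k : ℕ, 0 < k → μ ^ k ≠ 1) :
    ∃ (F₁ : Subfield Ω) (w : AbsoluteValue F₁ ℝ) (hμ : μ ∈ F₁), w ⟨μ, hμ⟩ ≠ 1 := by
  rcases CharP.exists' Ω with hz | ⟨p, hp, hc⟩
  · by_cases ht : Transcendental ℚ μ
    · exact exists_abv_transcendental μ ht
    · have hi : IsIntegral ℚ μ := (not_not.1 ht).isIntegral
      let L := IntermediateField.adjoin ℚ ({μ} : Set Ω)
      have : FiniteDimensional ℚ L := IntermediateField.adjoin.finiteDimensional hi
      have : NumberField L := { }
      let a : L := ⟨μ, IntermediateField.mem_adjoin_simple_self ℚ μ⟩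
      obtain ⟨v, hv⟩ := exists_abv_numberField a (fun e => h0 (congrArg Subtype.val e))
        (fun k hk e => h k hk (congrArg Subtype.val e))
      exact exists_subfield_of_hom v L.val.toRingHom (a := a) rfl hv
  · let : Algebra (ZMod p) Ω := ZMod.algebra Ω p
    by_cases ht : Transcendental (ZMod p) μ
    · exact exists_abv_transcendental μ ht
    · exfalso
      have hi : IsIntegral (ZMod p) μ := (not_not.1 ht).isIntegral
      let L := IntermediateField.adjoin (ZMod p) ({μ} : Set Ω)
      have : FiniteDimensional (ZMod p) L := IntermediateField.adjoin.finiteDimensional hi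
      have : Finite L := Module.finite_of_finite (ZMod p)
      have hu : (⟨μ, IntermediateField.mem_adjoin_simple_self (ZMod p) μ⟩ : L) ≠ 0 :=
        fun e => h0 (congrArg Subtype.val e)
      obtain ⟨k, hk, hk'⟩ := isOfFinOrder_iff_pow_eq_one.1
        (isOfFinOrder_of_finite (Units.mk0 _ hu))
      exact h k hk (congrArg (fun u : Lˣ => ((u : L) : Ω)) hk')

end Vale.Agent.P184
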