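import Mathlib
import Vale.Agent.P184.Defs

/-!
# P184: a Lipschitz character from an eigenvalue of absolute value different from one
-/

namespace Vale.Agent.P184

open Matrix

section Size

variable {F : Type*} [Field F] (v : AbsoluteValue F ℝ) {m : ℕ}
variable {ι κ : Type*} [Fintype ι] [DecidableEq ι] [Fintype κ] [DecidableEq κ]

/-- Sum of the absolute values of all maximal minors of a matrix with `m` columns. -/
noncomputable def minorSum (A : Matrix ι (Fin m) F) : ℝ :=
  ∑ r : Fin m → ι, v (A.submatrix r id).det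

omit [DecidableEq ι] in
lemma minorSum_nonneg (A : Matrix ι (Fin m) F) : 0 ≤ minorSum v A :=
  Finset.sum_nonneg fun _ _ => v.nonneg _

omit [DecidableEq ι] in
lemma minorSum_mul_right (A : Matrix ι (Fin m) F) (M : Matrix (Fin m) (Fin m) F) :
    minorSum v (A * M) = minorSum v A * v M.det := by
  rw [minorSum, minorSum, Finset.sum_mul]
  refine Finset.sum_congr rfl fun r _ => ?_
  rw [show (A * M).submatrix r id = A.submatrix r id * M by ext; simp [Matrix.mul_apply],
    det_mul, map_mul]

omit [DecidableEq ι] [Fintype κ] [DecidableEq κ] in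
lemma det_submatrix_mul (h : Matrix κ ι F) (A : Matrix ι (Fin m) F) (r : Fin m → κ) :
    ((h * A).submatrix r id).det =
      ∑ σ : Fin m → ι, (∏ k, h (r k) (σ k)) * (A.submatrix σ id).det := by
  have e : ((h * A).submatrix r id) = fun k => ∑ j, h (r k) j • A j := by
    ext k l; simp [Matrix.mul_apply]
  rw [e]
  show (detRowAlternating (R := F) (n := Fin m)).toMultilinearMap _ = _
  rw [MultilinearMap.map_sum]
  refine Finset.sum_congr rfl fun σ _ => ?_
  rw [MultilinearMap.map_smul_univ, smul_eq_mul]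
  rfl

omit [DecidableEq ι] [DecidableEq κ] in
lemma minorSum_mul_le (h : Matrix κ ι F) :
    ∃ C, 0 < C ∧ ∀ A : Matrix ι (Fin m) F, minorSum v (h * A) ≤ C * minorSum v A := by
  refine ⟨(∑ r : Fin m → κ, ∑ σ : Fin m → ι, ∏ k, v (h (r k) (σ k))) + 1, ?_, fun A => ?_⟩
  · have : 0 ≤ ∑ r : Fin m → κ, ∑ σ : Fin m → ι, ∏ k, v (h (r k) (σ k)) :=
      Finset.sum_nonneg fun _ _ => Finset.sum_nonneg fun _ _ => Finset.prod_nonneg fun _ _ => v.nonneg _
    linarith
  refine le_trans ?_ (mul_le_mul_of_nonneg_right (le_add_of_nonneg_right zero_le_one)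
    (minorSum_nonneg v A))
  rw [Finset.sum_mul]
  refine Finset.sum_le_sum fun r _ => ?_
  rw [det_submatrix_mul, Finset.sum_mul]
  refine le_trans (v.sum_le _ _) (Finset.sum_le_sum fun σ _ => ?_)
  rw [map_mul, map_prod]
  refine mul_le_mul_of_nonneg_left ?_ (Finset.prod_nonneg fun _ _ => v.nonneg _)
  exact Finset.single_le_sum (f := fun σ : Fin m → ι => v (A.submatrix σ id).det)
    (fun _ _ => v.nonneg _) (Finset.mem_univ σ)

lemma minorSum_pos_of_leftInverse (A : Matrix ι (Fin m) F) (Q : Matrix (Fin m) ι F)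
    (hQ : Q * A = 1) : 0 < minorSum v A := by
  obtain ⟨C, hC, hle⟩ := minorSum_mul_le v (m := m) Q
  have h1 : 1 ≤ minorSum v (Q * A) := by
    rw [hQ]
    refine le_trans ?_ (Finset.single_le_sum
      (f := fun r : Fin m → Fin m => v ((1 : Matrix (Fin m) (Fin m) F).submatrix r id).det)
      (fun _ _ => v.nonneg _) (Finset.mem_univ id))
    simp
  by_contra hn
  have : minorSum v (Q * A) ≤ 0 := (hle A).trans (mul_nonpos_of_nonneg_of_nonpos hC.le (not_lt.1 hn))
  linarith

end Size

/-- An eigenvalue of absolute value different from one gives a Lipschitz character. -/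
theorem lipHom_of_absValue {H : Type*} [Group H] {F : Type*} [Field F] {ι : Type*} [Fintype ι]
    [DecidableEq ι] (v : AbsoluteValue F ℝ) (ρ : H →* GL ι F) (x : H) (lam : F)
    (hdet : ((ρ x : Matrix ι ι F) - Matrix.scalar ι lam).det = 0) (hv : v lam ≠ 1) :
    LipHom x := by
  classical
  have hlam : lam ≠ 0 := by
    rintro rfl
    rw [map_zero, sub_zero] at hdet
    exact ((Matrix.isUnit_iff_isUnit_det _).1 (ρ x).isUnit).ne_zero hdet
  obtain ⟨w, hw, hwx⟩ := Matrix.exists_mulVec_eq_zero_iff.2 hdet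
  set V : Submodule F (ι → F) :=
    LinearMap.ker (Matrix.toLin' ((ρ x : Matrix ι ι F) - Matrix.scalar ι lam)) with hV
  have memV : ∀ u, u ∈ V ↔ (ρ x : Matrix ι ι F) *ᵥ u = lam • u := by
    intro u
    rw [hV, LinearMap.mem_ker, Matrix.toLin'_apply, sub_mulVec, sub_eq_zero]
    simp [Matrix.scalar_apply, ← Matrix.smul_one_eq_diagonal, smul_mulVec]
  set m := Module.finrank F V with hm
  have hm1 : 0 < m := by
    rw [hm, Module.finrank_pos_iff_exists_ne_zero]
    exact ⟨⟨w, by rw [hV, LinearMap.mem_ker, Matrix.toLin'_apply, hwx]⟩,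
      fun h => hw (congrArg Subtype.val h)⟩
  let b : Module.Basis (Fin m) F V := Module.finBasis F V
  let B : Matrix ι (Fin m) F := Matrix.of fun i j => (b j : ι → F) i
  have colB : ∀ (M : Matrix ι ι F) i j, (M * B) i j = (M *ᵥ (b j : ι → F)) i := fun M i j => rfl
  obtain ⟨P, hP⟩ := V.subtype.exists_leftInverse_of_injective V.ker_subtype
  let Q : Matrix (Fin m) ι F := LinearMap.toMatrix' ((b.equivFun.toLinearMap).comp P)
  have hQ : Q * B = 1 := by
    ext i j
    have e1 : (Q * B) i j = (Q *ᵥ (b j : ι → F)) i := rfl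
    have e2 : P (b j : ι → F) = b j := LinearMap.congr_fun hP (b j)
    rw [e1, LinearMap.toMatrix'_mulVec]
    simp [e2, Matrix.one_apply, eq_comm]
  have hxB : ((ρ x : GL ι F) : Matrix ι ι F) * B = lam • B := by
    ext i j
    rw [colB, (memV _).1 (b j).2]
    rfl
  have hS : ∀ y : H, 0 < minorSum v ((ρ y : Matrix ι ι F) * B) := by
    intro y
    obtain ⟨C, hC, hle⟩ := minorSum_mul_le v (m := m) ((ρ y⁻¹ : GL ι F) : Matrix ι ι F)
    have h := hle ((ρ y : Matrix ι ι F) * B)
    rw [← Matrix.mul_assoc, ← Units.val_mul, ← map_mul, inv_mul_cancel, map_one, Units.val_one,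
      Matrix.one_mul] at h
    have hpos := minorSum_pos_of_leftInverse v B Q hQ
    rcases (minorSum_nonneg v ((ρ y : Matrix ι ι F) * B)).lt_or_eq with h' | h'
    · exact h'
    · rw [← h'] at h; linarith
  have hmul : ∀ (z : H) (M : Matrix (Fin m) (Fin m) F), (ρ z : Matrix ι ι F) * B = B * M →
      ∀ y, Real.log (minorSum v ((ρ (y * z) : Matrix ι ι F) * B)) =
        Real.log (minorSum v ((ρ y : Matrix ι ι F) * B)) + Real.log (v M.det) := by
    intro z M hM y
    have e : ((ρ (y * z) : Matrix ι ι F) * B) = ((ρ y : Matrix ι ι F) * B) * M := by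
      rw [map_mul, Units.val_mul, Matrix.mul_assoc, hM, Matrix.mul_assoc]
    have hp := hS (y * z)
    rw [e, minorSum_mul_right] at hp ⊢
    exact Real.log_mul (hS y).ne' (right_ne_zero_of_mul hp.ne')
  refine ⟨fun y => Real.log (minorSum v ((ρ y : Matrix ι ι F) * B)), m * Real.log (v lam),
    ?_, ?_, ?_, ?_⟩
  · refine mul_ne_zero (by exact_mod_cast hm1.ne') ?_
    exact Real.log_ne_zero_of_pos_of_ne_one (v.pos hlam) hv
  · intro y
    show Real.log (minorSum v ((ρ (y * x) : Matrix ι ι F) * B)) = _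
    rw [hmul x (lam • (1 : Matrix (Fin m) (Fin m) F)) (by simp [hxB]) y]
    simp [Real.log_pow]
  · intro z hz y y'
    have hinv : ∀ j, (ρ z : Matrix ι ι F) *ᵥ (b j : ι → F) ∈ V := by
      intro j
      rw [memV, mulVec_mulVec, ← Units.val_mul, ← map_mul, ← hz, map_mul, Units.val_mul,
        ← mulVec_mulVec, (memV _).1 (b j).2, mulVec_smul]
    let M : Matrix (Fin m) (Fin m) F := Matrix.of fun i j => b.repr ⟨_, hinv j⟩ i
    have hM : (ρ z : Matrix ι ι F) * B = B * M := by
      ext i j
      rw [colB]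
      have e := congrArg (fun u : V => (u : ι → F) i) (b.sum_repr ⟨_, hinv j⟩)
      simp only [AddSubmonoidClass.coe_finsetSum, Finset.sum_apply, SetLike.val_smul, Pi.smul_apply,
        smul_eq_mul] at e
      rw [← e, Matrix.mul_apply]
      exact Finset.sum_congr rfl fun k _ => mul_comm _ _
    simp only [hmul z M hM]
    ring
  · intro h
    obtain ⟨C, hC, hle⟩ := minorSum_mul_le v (m := m) ((ρ h : GL ι F) : Matrix ι ι F)
    obtain ⟨D, hD, hle'⟩ := minorSum_mul_le v (m := m) ((ρ h⁻¹ : GL ι F) : Matrix ι ι F)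
    refine ⟨|Real.log C| + |Real.log D|, fun y => ?_⟩
    simp only [map_mul, Units.val_mul, Matrix.mul_assoc]
    have h1 := hle ((ρ y : Matrix ι ι F) * B)
    have h2 := hle' ((ρ h : Matrix ι ι F) * ((ρ y : Matrix ι ι F) * B))
    rw [← Matrix.mul_assoc ((ρ h⁻¹ : GL ι F) : Matrix ι ι F), ← Units.val_mul, ← map_mul,
      inv_mul_cancel, map_one, Units.val_one, Matrix.one_mul] at h2
    have p1 := hS y
    have p2 : 0 < minorSum v ((ρ h : Matrix ι ι F) * ((ρ y : Matrix ι ι F) * B)) := by
      simpa [map_mul, Matrix.mul_assoc] using hS (h * y)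
    have l1 := Real.log_le_log p2 h1
    have l2 := Real.log_le_log p1 h2
    rw [Real.log_mul hC.ne' p1.ne'] at l1
    rw [Real.log_mul hD.ne' p2.ne'] at l2
    rw [abs_le]
    constructor <;> linarith [le_abs_self (Real.log C), le_abs_self (Real.log D),
      abs_nonneg (Real.log C), abs_nonneg (Real.log D)]

end Vale.Agent.P184
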