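import Mathlib
import Vale.Agent.P184.Defs
import Vale.Agent.P184.LinearNorm
import Vale.Agent.P184.LinearField

/-!
# P184: Lipschitz characters for linear groups

An eigenvalue which is not a root of unity gives, after specialisation to a finite extension of
the field it generates, a Lipschitz character.
-/

namespace Vale.Agent.P184

open Matrix

/-- Matrix entries of the values of a representation of a finitely generated group lie in a
finitely generated algebra. -/
lemma exists_subalgebra {H : Type*} [Group H] (hH : Group.FG H) {A Ω : Type*} [CommRing A]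
    [CommRing Ω] [Algebra A Ω] {ι : Type*} [Fintype ι] [DecidableEq ι] (ρ : H →* Matrix ι ι Ω) :
    ∃ R : Subalgebra A Ω, R.FG ∧ ∀ h i j, ρ h i j ∈ R := by
  classical
  obtain ⟨S, hS⟩ := Group.fg_def.1 hH
  let T : Finset Ω := S.biUnion fun s =>
    Finset.univ.biUnion fun i => Finset.univ.biUnion fun j => {ρ s i j, ρ s⁻¹ i j}
  refine ⟨Algebra.adjoin A (T : Set Ω), ⟨T, rfl⟩, fun h => ?_⟩
  have hh : h ∈ Subgroup.closure (S : Set H) := by rw [hS]; trivial
  have key : (∀ i j, ρ h i j ∈ Algebra.adjoin A (T : Set Ω)) ∧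
      ∀ i j, ρ h⁻¹ i j ∈ Algebra.adjoin A (T : Set Ω) := by
    induction hh using Subgroup.closure_induction with
    | mem s hs =>
      constructor <;> intro i j <;> refine Algebra.subset_adjoin (Finset.mem_coe.2 ?_) <;>
        simp only [T, Finset.mem_biUnion, Finset.mem_univ, true_and, Finset.mem_insert,
          Finset.mem_singleton]
      · exact ⟨s, hs, i, j, Or.inl rfl⟩
      · exact ⟨s, hs, i, j, Or.inr rfl⟩
    | one =>
      constructor <;> intro i j <;> simp [Matrix.one_apply] <;> split_ifs <;>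
        first | exact one_mem _ | exact zero_mem _
    | mul a b _ _ ha hb =>
      constructor <;> intro i j <;> simp only [_root_.mul_inv_rev, map_mul, Matrix.mul_apply] <;>
        refine sum_mem fun k _ => mul_mem ?_ ?_
      · exact ha.1 i k
      · exact hb.1 k j
      · exact hb.2 i k
      · exact ha.2 k j
    | inv a _ ha => exact ⟨ha.2, by simpa using ha.1⟩
  exact key.1

/-- Restriction of scalars from a finite field extension. -/
lemma lipHom_of_finite {H : Type*} [Group H] {F₁ N : Type*} [Field F₁] [Field N] [Algebra F₁ N]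
    [Module.Finite F₁ N] {n : ℕ} (ρ : H →* Matrix (Fin n) (Fin n) N) (x : H)
    (v : AbsoluteValue F₁ ℝ) (a : F₁) (hv : v a ≠ 1)
    (hdet : (ρ x - Matrix.scalar (Fin n) (algebraMap F₁ N a)).det = 0) : LipHom x := by
  classical
  let b := Module.finBasis F₁ N
  let Φ : Matrix (Fin n) (Fin n) N →ₐ[F₁]
      Matrix (Fin n × Fin (Module.finrank F₁ N)) (Fin n × Fin (Module.finrank F₁ N)) F₁ :=
    ((Matrix.compAlgEquiv (Fin n) (Fin (Module.finrank F₁ N)) F₁ F₁).toAlgHom).comp
      (Algebra.leftMulMatrix b).mapMatrix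
  have hΦ : Function.Injective Φ := fun A B h => by
    have h' : A.map (Algebra.leftMulMatrix b) = B.map (Algebra.leftMulMatrix b) :=
      (Matrix.compAlgEquiv (Fin n) (Fin (Module.finrank F₁ N)) F₁ F₁).injective h
    exact Matrix.map_injective (Algebra.leftMulMatrix_injective b) h'
  let ρ' := (Φ.toRingHom.toMonoidHom.comp ρ).toHomUnits
  refine lipHom_of_absValue v ρ' x a ?_ hv
  have e : ((ρ' x : GL _ F₁) : Matrix _ _ F₁) - Matrix.scalar _ a =
      Φ (ρ x - Matrix.scalar (Fin n) (algebraMap F₁ N a)) := by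
    rw [map_sub, show Matrix.scalar (Fin n) (algebraMap F₁ N a) =
      algebraMap F₁ (Matrix (Fin n) (Fin n) N) a from rfl, AlgHom.commutes]
    rfl
  rw [e]
  obtain ⟨w, hw, hwz⟩ := Matrix.exists_mulVec_eq_zero_iff.2 hdet
  by_contra hne
  have hu := (Matrix.isUnit_iff_isUnit_det _).2 (isUnit_iff_ne_zero.2 hne)
  apply hw
  funext i
  let W : Matrix (Fin n) (Fin n) N := Matrix.of fun k _ => w k
  have hW : Φ (ρ x - Matrix.scalar (Fin n) (algebraMap F₁ N a)) * Φ W = 0 := by
    rw [← map_mul]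
    convert map_zero Φ
    ext k l
    exact congrFun hwz k
  have hW0 : W = 0 := hΦ (by rw [map_zero]; exact (hu.mul_right_eq_zero).1 hW)
  exact congrFun (congrFun hW0 i) i

/-- Specialisation: if `μ` is in a subfield with a suitable absolute value then `x` has a
Lipschitz character. -/
lemma lipHom_of_subfield {H : Type*} [Group H] (hH : Group.FG H) {Ω : Type*} [Field Ω] {n : ℕ}
    (ρ : H →* GL (Fin n) Ω) (x : H) {F₁ : Subfield Ω} (v : AbsoluteValue F₁ ℝ) {μ : Ω}
    (hμ : μ ∈ F₁) (hv : v ⟨μ, hμ⟩ ≠ 1)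
    (hdet : ((ρ x : Matrix (Fin n) (Fin n) Ω) - Matrix.scalar (Fin n) μ).det = 0) :
    LipHom x := by
  classical
  obtain ⟨a, rfl⟩ : ∃ a : F₁, (a : Ω) = μ := ⟨⟨μ, hμ⟩, rfl⟩
  obtain ⟨R, hfg, hR⟩ := exists_subalgebra (A := F₁) hH ((Units.coeHom _).comp ρ)
  have : Algebra.FiniteType F₁ R := R.fg_iff_finiteType.1 hfg
  let M : H →* Matrix (Fin n) (Fin n) R :=
    { toFun := fun h => Matrix.of fun i j => ⟨(ρ h : Matrix (Fin n) (Fin n) Ω) i j, hR h i j⟩
      map_one' := by
        ext i j
        simp [Matrix.one_apply]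
        split_ifs <;> simp
      map_mul' := fun g h => by
        ext i j
        simp [Matrix.mul_apply] }
  have hdR : (M x - Matrix.scalar (Fin n) (algebraMap F₁ R a)).det = 0 := by
    apply Subtype.val_injective
    show R.val.toRingHom _ = _
    rw [RingHom.map_det, map_sub]
    convert hdet using 3
    · rfl
    · ext i j
      rcases eq_or_ne i j with h | h
      · subst h
        simp [Matrix.scalar_apply]
        rfl
      · simp [Matrix.scalar_apply, h]
    · simp
  obtain ⟨𝔪, h𝔪⟩ := Ideal.exists_maximal R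
  let := Ideal.Quotient.field 𝔪
  have : Algebra.FiniteType F₁ (R ⧸ 𝔪) :=
    Algebra.FiniteType.of_surjective (Ideal.Quotient.mkₐ F₁ 𝔪) Ideal.Quotient.mk_surjective
  have : Module.Finite F₁ (R ⧸ 𝔪) := finite_of_finite_type_of_isJacobsonRing F₁ (R ⧸ 𝔪)
  let π : R →ₐ[F₁] R ⧸ 𝔪 := Ideal.Quotient.mkₐ F₁ 𝔪
  refine lipHom_of_finite ((π.toRingHom.mapMatrix (m := Fin n)).toMonoidHom.comp M) x v a hv ?_
  have e : π.toRingHom.mapMatrix (Matrix.scalar (Fin n) (algebraMap F₁ R a)) =
      Matrix.scalar (Fin n) (algebraMap F₁ (R ⧸ 𝔪) a) := by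
    ext i j
    rcases eq_or_ne i j with rfl | h
    · simp [Matrix.scalar_apply]
    · simp [Matrix.scalar_apply, h]
  rw [← e]
  show (π.toRingHom.mapMatrix (M x) - _).det = 0
  rw [← map_sub, ← RingHom.map_det, hdR, map_zero]

/-- An eigenvalue which is not a root of unity gives a Lipschitz character. -/
theorem lipHom_of_eigen {H : Type*} [Group H] (hH : Group.FG H) {K : Type*} [Field K] {n : ℕ}
    (ρ : H →* GL (Fin n) K) (x : H) (μ : AlgebraicClosure K)
    (hroot : ((ρ x : Matrix (Fin n) (Fin n) K).map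
      (algebraMap K (AlgebraicClosure K))).charpoly.IsRoot μ)
    (hμ : ∀ k : ℕ, 0 < k → μ ^ k ≠ 1) : LipHom x := by
  let ρb : H →* GL (Fin n) (AlgebraicClosure K) :=
    (GeneralLinearGroup.map (algebraMap K (AlgebraicClosure K))).comp ρ
  have hdet : ((ρb x : Matrix (Fin n) (Fin n) (AlgebraicClosure K)) -
      Matrix.scalar (Fin n) μ).det = 0 := by
    rw [← neg_sub, Matrix.det_neg]
    have := hroot
    rw [Polynomial.IsRoot, Matrix.eval_charpoly] at this
    exact mul_eq_zero_of_right _ this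
  have h0 : μ ≠ 0 := by
    rintro rfl
    rw [map_zero, sub_zero] at hdet
    exact ((Matrix.isUnit_iff_isUnit_det _).1 (ρb x).isUnit).ne_zero hdet
  obtain ⟨F₁, v, hm, hv⟩ := exists_subfield_abv μ h0 hμ
  exact lipHom_of_subfield hH ρb x v hm hv hdet

/-- In characteristic `p` an element of infinite order of a linear group has an eigenvalue which
is not a root of unity. -/
theorem exists_eigen_of_not_isOfFinOrder {H : Type*} [Group H] {K : Type*} [Field K] (p : ℕ)
    [Fact p.Prime] [CharP K p] {n : ℕ} (ρ : H →* GL (Fin n) K) (hρ : Function.Injective ρ)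
    (x : H) (hx : ¬ IsOfFinOrder x) :
    ∃ μ : AlgebraicClosure K, ((ρ x : Matrix (Fin n) (Fin n) K).map
      (algebraMap K (AlgebraicClosure K))).charpoly.IsRoot μ ∧ ∀ k : ℕ, 0 < k → μ ^ k ≠ 1 := by
  classical
  by_contra hno
  push Not at hno
  apply hx
  rcases Nat.eq_zero_or_pos n with rfl | hn
  · rw [show x = 1 from hρ (Subsingleton.elim _ _)]
    exact IsOfFinOrder.one
  have : Nonempty (Fin n) := ⟨⟨0, hn⟩⟩
  set A : Matrix (Fin n) (Fin n) (AlgebraicClosure K) :=
    (ρ x : Matrix (Fin n) (Fin n) K).map (algebraMap K (AlgebraicClosure K)) with hA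
  let r := A.charpoly.roots
  have hk : ∀ μ : AlgebraicClosure K, ∃ k : ℕ, 0 < k ∧ (μ ∈ r → μ ^ k = 1) := by
    intro μ
    by_cases hμ : μ ∈ r
    · obtain ⟨k, hk, hk'⟩ := hno μ (Polynomial.isRoot_of_mem_roots hμ)
      exact ⟨k, hk, fun _ => hk'⟩
    · exact ⟨1, one_pos, fun h => absurd h hμ⟩
  choose k hk0 hk1 using hk
  let N := ∏ μ ∈ r.toFinset, k μ
  have hN : 0 < N := Finset.prod_pos fun μ _ => hk0 μ
  have hdvd : A.charpoly ∣ (Polynomial.X ^ N - 1) ^ r.card := by
    have hsplit : A.charpoly = (r.map fun a => Polynomial.X - Polynomial.C a).prod :=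
      ((IsAlgClosed.splits A.charpoly).eq_prod_roots_of_monic A.charpoly_monic)
    rw [hsplit, ← Multiset.prod_replicate, ← Multiset.map_const']
    refine Multiset.prod_dvd_prod_of_dvd _ _ fun μ hμ => ?_
    rw [Polynomial.dvd_iff_isRoot]
    obtain ⟨q, hq⟩ := Finset.dvd_prod_of_mem k (Multiset.mem_toFinset.2 hμ)
    show Polynomial.eval μ _ = 0
    simp [N, hq, pow_mul, hk1 μ hμ]
  obtain ⟨q, hq⟩ := hdvd
  have hnil : (A ^ N - 1) ^ r.card = 0 := by
    have := congrArg (Polynomial.aeval A) hq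
    simpa [Matrix.aeval_self_charpoly] using this
  have : CharP (AlgebraicClosure K) p :=
    charP_of_injective_algebraMap (algebraMap K (AlgebraicClosure K)).injective p
  have hpow : (A ^ N - 1) ^ p ^ r.card = 0 :=
    pow_eq_zero_of_le (Nat.lt_pow_self (Fact.out : p.Prime).one_lt).le hnil
  rw [sub_pow_char_pow_of_commute _ _ (Commute.one_right (A ^ N)), one_pow, sub_eq_zero,
    ← pow_mul] at hpow
  refine isOfFinOrder_iff_pow_eq_one.2 ⟨N * p ^ r.card,
    Nat.mul_pos hN (pow_pos (Fact.out : p.Prime).pos _), hρ ?_⟩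
  rw [map_pow, map_one]
  apply Units.ext
  apply Matrix.map_injective (algebraMap K (AlgebraicClosure K)).injective
  rw [Units.val_pow_eq_pow_val, Units.val_one]
  show (algebraMap K (AlgebraicClosure K)).mapMatrix _ = (algebraMap K (AlgebraicClosure K)).mapMatrix 1
  rw [map_pow, map_one]
  exact hpow

end Vale.Agent.P184
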