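import Mathlib
import Vale.Agent.P184.Main
import Vale.Agent.P184.Integer
import Vale.Agent.P184.Linear

/-!
# P184: vanishing for linear representations
-/

namespace Vale.Agent.P184

variable {G : Type*} [Group G] {K : Type*} [Field K] {n q : ℕ}

/-- An eigenvalue which is not a root of unity forces the coefficient to vanish. -/
theorem hsCoeff_eq_zero_of_eigen (ρ : G →* GL (Fin n) K) (g : G) (μ : AlgebraicClosure K)
    (hroot : ((ρ g : Matrix (Fin n) (Fin n) K).map
      (algebraMap K (AlgebraicClosure K))).charpoly.IsRoot μ)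
    (hμ : ∀ k : ℕ, 0 < k → μ ^ k ≠ 1) {e : Fin q → Fin q → G → ℂ} (he : IsL1Idempotent e) :
    hsCoeff e g = 0 := by
  refine hsCoeff_eq_zero g (fun s x hx => ?_) he
  have hFG : Group.FG (Subgroup.closure (s : Set G)) :=
    Group.closure_finite_fg (s : Set G)
  refine lipHom_of_eigen hFG (ρ.comp (Subgroup.closure (s : Set G)).subtype) x μ ?_ hμ
  obtain ⟨c, hc⟩ := isConj_iff.mp hx
  rw [Matrix.charpoly_map] at hroot ⊢
  have hconj : ((ρ x : GL (Fin n) K) : Matrix (Fin n) (Fin n) K).charpoly
      = ((ρ g : GL (Fin n) K) : Matrix (Fin n) (Fin n) K).charpoly := by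
    rw [← hc, map_mul, map_mul, map_inv, Units.val_mul, Units.val_mul, Matrix.coe_units_inv, Matrix.charpoly_units_conj]
  show (Polynomial.map _ ((ρ x : GL (Fin n) K) : Matrix (Fin n) (Fin n) K).charpoly).IsRoot μ
  rw [hconj]
  exact hroot

/-- Linear groups in positive characteristic: vanishing at all classes of infinite order. -/
theorem hsCoeff_eq_zero_of_not_isOfFinOrder (p : ℕ) [Fact p.Prime] [CharP K p]
    (ρ : G →* GL (Fin n) K) (hρ : Function.Injective ρ) (g : G) (hg : ¬ IsOfFinOrder g)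
    {e : Fin q → Fin q → G → ℂ} (he : IsL1Idempotent e) : hsCoeff e g = 0 := by
  obtain ⟨μ, hroot, hμ⟩ := exists_eigen_of_not_isOfFinOrder p ρ hρ g hg
  exact hsCoeff_eq_zero_of_eigen ρ g μ hroot hμ he

end Vale.Agent.P184
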